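import Vale.Agent.P146.H773.ConcMain
import Vale.Agent.P146.H432.XCurve

/-!
# P146: concavity in the length of the window, in the letters of `H432`
-/

namespace Vale.Agent.P146.H773

theorem antiN (n : ℕ) (β : ℝ) : H432.AntiN n β :=
  H432.AntiN.of_TT fun _ hx hx1 s _ _ => tt_sk (β / √n) hx hx1 s

theorem concN (n : ℕ) (β : ℝ) : H432.ConcN n β := (antiN n β).conc

end Vale.Agent.P146.H773
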