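import Vale.Agent.P146.H773.Ineq
import Vale.Agent.P146.H461.ConcAlg

/-!
The inequality (c), two replicas with different completions.
-/

open MeasureTheory ProbabilityTheory Filter Topology Set

namespace Vale.Agent.P146.H773

open Vale.Agent.P157.Lv Vale.Agent.P146.H425 Vale.Agent.P146.H785 Vale.Agent.P146.H325
open Vale.Agent.P146.H332

set_option linter.unusedSectionVars false

variable {κ : Type} [Fintype κ] [DecidableEq κ] {X : Type} [Fintype X] [Nonempty X]
  {k : ℝ} {S : κ → X → ℝ} {x b B L B2 : ℝ}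

/-- the summed functional -/
theorem sum_Tm (h : C2 (lz k S) (Dg k S) (Hg k S) B L B2) (y : κ → ℝ) :
    ∑ ρ, ∑ τ, Tm k S x b ρ τ y = 2 * (cL k S x b y - cR k S x b y) := by
  have hl := h.c1.lip
  have hB := h.c1.B0
  set v : κ → ℝ := fun e => DW x b (lz k S) (Dg k S) e y with hv
  set C : κ → κ → ℝ := fun e f => Ax x b (lz k S) (Hg k S e f) y with hC
  set P : κ → κ → ℝ := fun e f => Ax x b (lz k S) (fun u => Dg k S e u * Dg k S f u) y with hP
  set H : κ → κ → ℝ := fun e f => HW x b (lz k S) (Dg k S) (Hg k S) e f y with hH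
  have key := H461.alg (a := fun ρ e => dir k S ρ e) (α := al k S x b y) (β := be k S x b y)
    (γ := ga k S x b y) (v := v) (A := fun e f => C e f + P e f) (P := P)
    (Ψ := fun e f => (1 - x) ^ 2 * P e f - (1 - x) * C e f) (h := H) (x := x)
    (H461.E_gw_one k S x b y) (fun e => H461.E_gw_a k S x b y e)
    (fun e f => H461.E_gw_aa k S x b y e f)
    (fun e => H461.E_gw_mul k S x b y (H461.eg_Dg k S e))
    (fun e f => H461.E_gw_Da k S x b y e f)
    (fun e f => by
      simp only [hP]
      congr 1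
      funext u
      ring)
    (fun e f => by
      refine (H461.E_gw_mul k S x b y (eg_Ps2 e f)).trans ?_
      have e1 : Ps2 k S x e f = fun u => (1 - x) ^ 2 * (Dg k S e u * Dg k S f u) +
          -(1 - x) * Hg k S e f u := by
        funext u
        unfold Ps2
        ring
      rw [e1, Ax_add hl hB (((h.egD e).mul (h.egD f)).const_mul _) ((h.egH e f).const_mul _),
        Ax_const_mul, Ax_const_mul]
      ring)
    (fun e f => HW_sym h x b e f y)
  have e0 : ∑ ρ, ∑ τ, Tm k S x b ρ τ y = _ := key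
  rw [e0]
  have e1 : (∑ e, v e ^ 2) ^ 2 = ∑ e, ∑ f, v e ^ 2 * v f ^ 2 := by
    rw [sq, Finset.sum_mul_sum]
  have e2 : cL k S x b y - cR k S x b y = ∑ e, ∑ f,
      ((4 * x * (v e * v f * C e f) + 4 * x ^ 2 * (v e * v f * (P e f - v e * v f))) -
      ((1 - x) * (C e f * C e f) + x * (1 - x) * (C e f * P e f) +
        2 * x * (H e f * (C e f + P e f - v e * v f)))) := by
    unfold cL cR
    simp only [Finset.sum_sub_distrib]
    rfl
  rw [e2, e1]
  simp only [Finset.mul_sum, ← Finset.sum_add_distrib, ← Finset.sum_sub_distrib]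
  refine Finset.sum_congr rfl fun e _ => Finset.sum_congr rfl fun f _ => ?_
  ring

/-- **(c), the inequality of two different replicas.** -/
theorem conc_c (hS : Swp S) (h : C2 (lz k S) (Dg k S) (Hg k S) B L B2) (hx : 0 < x)
    (hx1 : x ≤ 1) (b c : ℝ) :
    ∫ z, cL k S x b (c • z) ∂(gI κ) ≤ ∫ z, cR k S x b (c • z) ∂(gI κ) :=
  c_of_alg hS h hx hx1 b c (sum_Tm h)

end Vale.Agent.P146.H773
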