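import Vale.Agent.P146.H773.One
import Vale.Agent.P146.H773.Fin
import Vale.Agent.P146.H533.ConcFin
import Vale.Agent.P146.H767.ConcSk

/-!
# P146: concavity of the free energy gain of one window in the length of the window

For every exponent `0 < x ≤ 1` the mean square of the gradient of the value function at the start
of the window is nonincreasing in the length `s` of the window. Hence the gain `DD x s` is a
concave function of the length.
-/

open MeasureTheory ProbabilityTheory Filter Topology Set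

namespace Vale.Agent.P146.H773

open Vale.Agent.P157.Lv Vale.Agent.P146.H425 Vale.Agent.P146.H785 Vale.Agent.P146.H325
open Vale.Agent.P146.H332 Vale.Agent.P146.H767 Vale.Agent.P146.H522
open Vale.Agent.P146.H946 (Dz Hz sk_c2)

set_option linter.unusedSectionVars false

section gen

variable {κ : Type} [Fintype κ] [DecidableEq κ] {X : Type} [Fintype X] [Nonempty X]
  {k : ℝ} {S : κ → X → ℝ} {x B L B2 : ℝ}

/-- **The inequality (T).** -/
theorem tt (hS : Swp S) (h : C2 (lz k S) (Dg k S) (Hg k S) B L B2) (hx : 0 < x) (hx1 : x ≤ 1)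
    (s : ℝ) : TT x s (lz k S) (Dg k S) (Hg k S) := by
  refine H533.tt_of h hx1 (conc_b hS h hx hx1 (√s) (√(1 - s))) ?_
  refine (conc_c hS h hx hx1 (√s) (√(1 - s))).trans (le_of_eq ?_)
  refine integral_congr_ae (Filter.Eventually.of_forall fun z => ?_)
  simp only [cR]
  refine Finset.sum_congr rfl fun e _ => Finset.sum_congr rfl fun f _ => ?_
  ring

end gen

variable {n : ℕ}

theorem tt_sk (k : ℝ) {x : ℝ} (hx : 0 < x) (hx1 : x ≤ 1) (s : ℝ) :
    TT x s (lz k (SkS (n := n))) (Dz k) (Hz k) :=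
  tt H533.swp_sk (sk_c2 k) hx hx1 s

/-- the mean square of the gradient at the start of the window is nonincreasing in the length -/
theorem Q0_anti (k : ℝ) {x : ℝ} (hx : 0 < x) (hx1 : x ≤ 1) :
    ∀ a c, 0 ≤ a → a ≤ c → c ≤ 1 →
      Q0 x c (lz k (SkS (n := n))) (Dz k) ≤ Q0 x a (lz k (SkS (n := n))) (Dz k) :=
  Q0_anti_sk k hx fun s _ _ => tt_sk k hx hx1 s

/-- **Concavity in the length of the window**, in the form used later. -/
theorem conc (k : ℝ) {x : ℝ} (hx : 0 < x) (hx1 : x ≤ 1) {s : ℝ} (hs : 0 ≤ s) (hs1 : s ≤ 1) :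
    x / 2 * (s * Q0 x s (lz k (SkS (n := n))) (Dz k)) ≤ DD x s (lz k (SkS (n := n))) ∧
      s * DD x 1 (lz k (SkS (n := n))) ≤ DD x s (lz k (SkS (n := n))) :=
  conc_of_TT k hx (fun s _ _ => tt_sk k hx hx1 s) hs hs1

/-- two lengths -/
theorem conc_two (k : ℝ) {x : ℝ} (hx : 0 < x) (hx1 : x ≤ 1) {s s' : ℝ} (hs : 0 ≤ s)
    (hss : s ≤ s') (hs1 : s' ≤ 1) :
    s * DD x s' (lz k (SkS (n := n))) ≤ s' * DD x s (lz k (SkS (n := n))) :=
  DD_conc_of (sk_c2 k).c1 hx (Q0_anti k hx hx1) hs hss hs1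

end Vale.Agent.P146.H773
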