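import Vale.Agent.P146.H946.SkI

/-!
Letters for the concavity of the free energy of one window in the length of the window.
-/

open MeasureTheory ProbabilityTheory

namespace Vale.Agent.P146.H773

open Vale.Agent.P157.Lv Vale.Agent.P146.H425 Vale.Agent.P146.H332 Vale.Agent.P146.H325

variable {κ : Type} [Fintype κ] [DecidableEq κ] {X : Type} [Fintype X] [Nonempty X]

/-- the gradient of `lz k S` -/
noncomputable abbrev Dg (k : ℝ) (S : κ → X → ℝ) : κ → (κ → ℝ) → ℝ := fun e u => k * H325.av k S (S e) u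

/-- the Hessian of `lz k S` -/
noncomputable abbrev Hg (k : ℝ) (S : κ → X → ℝ) : κ → κ → (κ → ℝ) → ℝ := fun e i u =>
  k * (k * (H325.av k S (fun σ => S e σ * S i σ) u - H325.av k S (S e) u * H325.av k S (S i) u))

/-- the Gibbs weight -/
noncomputable def gw (k : ℝ) (S : κ → X → ℝ) (ρ : X) (u : κ → ℝ) : ℝ := ez k S u ρ / Zp k S u

/-- the gauge symmetry: any two configurations are exchanged by a change of signs -/
def Swp (S : κ → X → ℝ) : Prop :=
  ∀ ρ τ : X, ∃ (χ : κ → ℝ) (π : X ≃ X), (∀ e, χ e = 1 ∨ χ e = -1) ∧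
    (∀ e σ, S e (π σ) = χ e * S e σ) ∧ π ρ = τ ∧ π τ = ρ

/-- the linear form -/
def Hl (k : ℝ) (S : κ → X → ℝ) (ρ : X) (u : κ → ℝ) : ℝ := k * ∑ e, S e ρ * u e

/-- the direction -/
def dir (k : ℝ) (S : κ → X → ℝ) (ρ : X) : κ → ℝ := fun e => k * S e ρ

end Vale.Agent.P146.H773
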