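import Vale.Agent.P146.H773.Two

/-!
The inequality (c): second order condition of the two replica functional, summed over the
configurations.
-/

open MeasureTheory ProbabilityTheory Filter Topology Set

namespace Vale.Agent.P146.H773

open Vale.Agent.P157.Lv Vale.Agent.P146.H425 Vale.Agent.P146.H785 Vale.Agent.P146.H325
open Vale.Agent.P146.H332

set_option linter.unusedSectionVars false

section int

variable {κ : Type} [Fintype κ] {F : (κ → ℝ) → ℝ} {D : κ → (κ → ℝ) → ℝ}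
  {HF : κ → κ → (κ → ℝ) → ℝ} {B L B2 x m b c : ℝ}

lemma outer_int (h : C2 F D HF B L B2) (hm : 0 ≤ m) (hx : 0 < x) (ℓ ℓ' : κ → ℝ) (b c : ℝ) :
    Integrable (fun z => Real.exp (op ℓ ℓ' m b c x F 0 z) *
      (op1 ℓ ℓ' m b c x F D 0 z ^ 2 + op2 ℓ ℓ' m b c x F D HF 0 z)) (gI κ) := by
  have hL : Lip (op ℓ ℓ' m b c x F 0) := lip_op h hx ℓ ℓ' 0
  have hi : Integrable (fun z => Real.exp (op ℓ ℓ' m b c x F 0 z)) (gI κ) :=
    H863.PL.integrable_of_gr hL.measurable (gr_lip hL)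
  refine hi.mul_bdd (c := Ko m x B B2 ℓ ℓ' ^ 2 + Ko m x B B2 ℓ ℓ')
    (((meas_op1 h ℓ ℓ' 0).pow_const 2).add (meas_op2 h ℓ ℓ' 0)).aestronglyMeasurable
    (Filter.Eventually.of_forall fun z => ?_)
  rw [Real.norm_eq_abs]
  obtain ⟨h1, h2⟩ := op1_bd (b := b) (c := c) h hm hx ℓ ℓ' 0 z
  refine (abs_add_le _ _).trans (add_le_add ?_ h2)
  rw [abs_pow]
  exact pow_le_pow_left₀ (abs_nonneg _) h1 2

end int

variable {κ : Type} [Fintype κ] [DecidableEq κ] {X : Type} [Fintype X] [Nonempty X]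
  {k : ℝ} {S : κ → X → ℝ} {x b c B L B2 : ℝ}

lemma lz_flp {χ : κ → ℝ} {π : X ≃ X} (h : ∀ e σ, S e (π σ) = χ e * S e σ) (u : κ → ℝ) :
    lz k S (flp χ u) = lz k S u := by
  unfold lz
  congr 1
  unfold Zp
  rw [← Equiv.sum_comp π (fun σ => ez k S u σ)]
  refine Finset.sum_congr rfl fun σ _ => ?_
  unfold ez flp
  congr 2
  refine Finset.sum_congr rfl fun e _ => ?_
  rw [h]
  ring

/-- **The two replica inequality, for every pair of configurations.** -/
theorem tm_le (hS : Swp S) (h : C2 (lz k S) (Dg k S) (Hg k S) B L B2) (hx : 0 < x) (hx1 : x ≤ 1)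
    (b c : ℝ) (ρ τ : X) :
    Integrable (fun z => Tm k S x b ρ τ (c • z)) (gI κ) ∧
      ∫ z, Tm k S x b ρ τ (c • z) ∂(gI κ) ≤ 0 := by
  obtain ⟨χ, π, hχ, hSπ, h1, h2⟩ := hS ρ τ
  have hχ2 : ∀ e, χ e ^ 2 = 1 := fun e => by
    rcases hχ e with h | h <;> rw [h] <;> norm_num
  have hl : flp χ (dir k S ρ) = dir k S τ := by
    funext e
    unfold flp dir
    rw [← h1, hSπ]
    ring
  have h3 := outer_le h (cv_lz k S) (by linarith : 0 ≤ 1 - x) hx hχ2 (lz_flp hSπ) hl b c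
  have h4 := outer_int h (by linarith : 0 ≤ 1 - x) hx (dir k S ρ) (dir k S τ) b c
  simp only [ev_op hx] at h3 h4
  exact ⟨h4, h3⟩

variable (k S x b) in
/-- the integrand of (c), left side -/
noncomputable def cL (y : κ → ℝ) : ℝ :=
  ∑ e, ∑ f, (4 * x * (DW x b (lz k S) (Dg k S) e y * DW x b (lz k S) (Dg k S) f y *
      Ax x b (lz k S) (Hg k S e f) y) +
    4 * x ^ 2 * (DW x b (lz k S) (Dg k S) e y * DW x b (lz k S) (Dg k S) f y *
      (Ax x b (lz k S) (fun u => Dg k S e u * Dg k S f u) y -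
        DW x b (lz k S) (Dg k S) e y * DW x b (lz k S) (Dg k S) f y)))

variable (k S x b) in
/-- the integrand of (c), right side -/
noncomputable def cR (y : κ → ℝ) : ℝ :=
  ∑ e, ∑ f, ((1 - x) * (Ax x b (lz k S) (Hg k S e f) y * Ax x b (lz k S) (Hg k S e f) y) +
    x * (1 - x) * (Ax x b (lz k S) (Hg k S e f) y *
      Ax x b (lz k S) (fun u => Dg k S e u * Dg k S f u) y) +
    2 * x * (HW x b (lz k S) (Dg k S) (Hg k S) e f y *
      (Ax x b (lz k S) (Hg k S e f) y + Ax x b (lz k S) (fun u => Dg k S e u * Dg k S f u) y -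
        DW x b (lz k S) (Dg k S) e y * DW x b (lz k S) (Dg k S) f y)))

/-- **(c)** from the finite sum identity -/
theorem c_of_alg (hS : Swp S) (h : C2 (lz k S) (Dg k S) (Hg k S) B L B2) (hx : 0 < x)
    (hx1 : x ≤ 1) (b c : ℝ)
    (halg : ∀ y : κ → ℝ, ∑ ρ, ∑ τ, Tm k S x b ρ τ y = 2 * (cL k S x b y - cR k S x b y)) :
    ∫ z, cL k S x b (c • z) ∂(gI κ) ≤ ∫ z, cR k S x b (c • z) ∂(gI κ) := by
  have hl := h.c1.lip
  have hB := h.c1.B0
  have hmc : Measurable fun z : κ → ℝ => c • z := by fun_prop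
  have eC : ∀ e f, EG fun z : κ → ℝ => Ax x b (lz k S) (Hg k S e f) (c • z) := fun e f =>
    EG.of_bdd ((Ax_meas hl hB (h.egH e f) x b).comp hmc)
      (fun z => Ax_abs_le hl hB (h.meas e f) (h.bd e f) x b (c • z))
  have eV : ∀ e, EG fun z : κ → ℝ => DW x b (lz k S) (Dg k S) e (c • z) := fun e =>
    EG.of_bdd ((Ax_meas hl hB (h.egD e) x b).comp hmc)
      (fun z => Ax_abs_le hl hB (h.c1.meas e) (h.c1.bd e) x b (c • z))
  have eP : ∀ e f, EG fun z : κ → ℝ =>
      Ax x b (lz k S) (fun u => Dg k S e u * Dg k S f u) (c • z) := fun e f =>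
    EG.of_bdd (C := B * B) ((Ax_meas hl hB ((h.egD e).mul (h.egD f)) x b).comp hmc)
      (fun z => Ax_abs_le hl hB (φ := fun u => Dg k S e u * Dg k S f u)
        ((h.c1.meas e).mul (h.c1.meas f)) (fun u => by
        rw [abs_mul]
        exact mul_le_mul (h.c1.bd e u) (h.c1.bd f u) (abs_nonneg _) hB) x b (c • z))
  have eH : ∀ e f, EG fun z : κ → ℝ => HW x b (lz k S) (Dg k S) (Hg k S) e f (c • z) :=
    fun e f => EG.of_bdd ((HW_meas h x b e f).comp hmc) (fun z => HW_bd h hx.le b e f (c • z))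
  have iL : Integrable (fun z => cL k S x b (c • z)) (gI κ) := by
    refine EG.integrable (EG.sum _ fun e _ => EG.sum _ fun f _ => ?_)
    exact ((((eV e).mul (eV f)).mul (eC e f)).const_mul _).add
      ((((eV e).mul (eV f)).mul ((eP e f).sub ((eV e).mul (eV f)))).const_mul _)
  have iR : Integrable (fun z => cR k S x b (c • z)) (gI κ) := by
    refine EG.integrable (EG.sum _ fun e _ => EG.sum _ fun f _ => ?_)
    exact ((((eC e f).mul (eC e f)).const_mul _).add (((eC e f).mul (eP e f)).const_mul _)).add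
      (((eH e f).mul (((eC e f).add (eP e f)).sub ((eV e).mul (eV f)))).const_mul _)
  have h1 : ∫ z, ∑ ρ, ∑ τ, Tm k S x b ρ τ (c • z) ∂(gI κ) ≤ 0 := by
    rw [integral_finsetSum _ fun ρ _ => integrable_finsetSum _ fun τ _ =>
      (tm_le hS h hx hx1 b c ρ τ).1]
    refine Finset.sum_nonpos fun ρ _ => ?_
    rw [integral_finsetSum _ fun τ _ => (tm_le hS h hx hx1 b c ρ τ).1]
    exact Finset.sum_nonpos fun τ _ => (tm_le hS h hx hx1 b c ρ τ).2
  simp only [halg] at h1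
  rw [integral_const_mul, integral_sub iL iR] at h1
  linarith

end Vale.Agent.P146.H773
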