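import Vale.Agent.P146.H773.Lg
import Vale.Agent.P146.H773.Def
import Vale.Agent.P146.H863.PLG

/-!
The completions of a planted replica: `IA ℓ m b F y w = E exp (ℓ(y + b z) - m F(y + b z + w))`.
-/

open MeasureTheory ProbabilityTheory Filter Topology Set

namespace Vale.Agent.P146.H773

open Vale.Agent.P157.Lv Vale.Agent.P146.H425 Vale.Agent.P146.H785

set_option linter.unusedSectionVars false

variable {κ : Type} [Fintype κ] {F : (κ → ℝ) → ℝ} {D : κ → (κ → ℝ) → ℝ}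
  {HF : κ → κ → (κ → ℝ) → ℝ} {B L B2 x m b : ℝ}

lemma line_deriv (u a : κ → ℝ) (θ : ℝ) : HasDerivAt (fun θ : ℝ => u + θ • a) a θ := by
  simpa using ((hasDerivAt_id θ).smul_const a).const_add u

lemma line_F (h : C11 F D B L) (u a : κ → ℝ) (θ : ℝ) :
    HasDerivAt (fun θ : ℝ => F (u + θ • a)) (∑ e, D e (u + θ • a) * a e) θ := by
  have h1 := (H785.C11.hasFDerivAt h (u + θ • a)).comp_hasDerivAt θ (line_deriv u a θ)
  rw [lf_apply] at h1
  exact h1

lemma line_D (h : Dv D HF) (e : κ) (u a : κ → ℝ) (θ : ℝ) :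
    HasDerivAt (fun θ : ℝ => D e (u + θ • a)) (∑ f, HF e f (u + θ • a) * a f) θ := by
  have h1 := (h e (u + θ • a)).comp_hasDerivAt θ (line_deriv u a θ)
  refine h1.congr_deriv ?_
  simp

lemma line_DD (h : Dv D HF) (u a : κ → ℝ) (θ : ℝ) :
    HasDerivAt (fun θ : ℝ => ∑ e, D e (u + θ • a) * a e)
      (∑ e, ∑ f, HF e f (u + θ • a) * a e * a f) θ := by
  have h1 : ∀ e ∈ (Finset.univ : Finset κ), HasDerivAt (fun θ : ℝ => D e (u + θ • a) * a e)
      ((∑ f, HF e f (u + θ • a) * a f) * a e) θ := fun e _ => (line_D h e u a θ).mul_const (a e)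
  refine (HasDerivAt.fun_sum h1).congr_deriv ?_
  refine Finset.sum_congr rfl fun e _ => ?_
  rw [Finset.sum_mul]
  exact Finset.sum_congr rfl fun f _ => by ring

/-- the exponent -/
def ip (ℓ : κ → ℝ) (m b : ℝ) (F : (κ → ℝ) → ℝ) (y a : κ → ℝ) (θ : ℝ) (z : κ → ℝ) : ℝ :=
  ∑ e, ℓ e * (y + b • z) e - m * F (y + b • z + θ • a)

/-- its derivative -/
def ip1 (m b : ℝ) (D : κ → (κ → ℝ) → ℝ) (y a : κ → ℝ) (θ : ℝ) (z : κ → ℝ) : ℝ :=
  -(m * ∑ e, D e (y + b • z + θ • a) * a e)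

/-- its second derivative -/
def ip2 (m b : ℝ) (HF : κ → κ → (κ → ℝ) → ℝ) (y a : κ → ℝ) (θ : ℝ) (z : κ → ℝ) : ℝ :=
  -(m * ∑ e, ∑ f, HF e f (y + b • z + θ • a) * a e * a f)

/-- the completion of a planted replica -/
noncomputable def IA (ℓ : κ → ℝ) (m b : ℝ) (F : (κ → ℝ) → ℝ) (y w : κ → ℝ) : ℝ :=
  ∫ z, Real.exp (∑ e, ℓ e * (y + b • z) e - m * F (y + b • z + w)) ∂(gI κ)

lemma IA_eq (ℓ : κ → ℝ) (m b : ℝ) (F : (κ → ℝ) → ℝ) (y a : κ → ℝ) (θ : ℝ) :
    IA ℓ m b F y (θ • a) = ∫ z, Real.exp (ip ℓ m b F y a θ z) ∂(gI κ) := rfl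

lemma abs_sum_D (h : ∀ e y, |D e y| ≤ B) (u a : κ → ℝ) :
    |∑ e, D e u * a e| ≤ B * ∑ e, |a e| := by
  refine (Finset.abs_sum_le_sum_abs _ _).trans ?_
  rw [Finset.mul_sum]
  refine Finset.sum_le_sum fun e _ => ?_
  rw [abs_mul]
  exact mul_le_mul_of_nonneg_right (h e u) (abs_nonneg _)

lemma abs_sum_H (h : ∀ e f y, |HF e f y| ≤ B2) (u a : κ → ℝ) :
    |∑ e, ∑ f, HF e f u * a e * a f| ≤ B2 * (∑ e, |a e|) ^ 2 := by
  refine (Finset.abs_sum_le_sum_abs _ _).trans ?_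
  have e1 : B2 * (∑ e, |a e|) ^ 2 = ∑ e, ∑ f, B2 * |a e| * |a f| := by
    rw [sq, Finset.sum_mul_sum, Finset.mul_sum]
    refine Finset.sum_congr rfl fun e _ => ?_
    rw [Finset.mul_sum]
    exact Finset.sum_congr rfl fun f _ => by ring
  rw [e1]
  refine Finset.sum_le_sum fun e _ => (Finset.abs_sum_le_sum_abs _ _).trans
    (Finset.sum_le_sum fun f _ => ?_)
  rw [abs_mul, abs_mul]
  exact mul_le_mul_of_nonneg_right (mul_le_mul_of_nonneg_right (h e f u) (abs_nonneg _))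
    (abs_nonneg _)

/-- the exponent of the completion as a function of the position -/
def ge (ℓ : κ → ℝ) (m : ℝ) (F : (κ → ℝ) → ℝ) (w u : κ → ℝ) : ℝ :=
  ∑ e, ℓ e * u e - m * F (u + w)

lemma lip_lin (ℓ : κ → ℝ) : Lip fun u : κ → ℝ => ∑ e, ℓ e * u e :=
  Lip.sum _ fun e _ => (Lip.coord e).const_mul _

lemma lip_ge (h : LipB F B) (hB : 0 ≤ B) (ℓ : κ → ℝ) (m : ℝ) (w : κ → ℝ) :
    Lip (ge ℓ m F w) := by
  have h1 : Lip fun u => F (u + w) := by
    have := (h.comp_add w).lip hB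
    refine cast ?_ this
    congr 1
    funext u
    rw [add_comm]
  have h2 := (lip_lin ℓ).add (h1.const_mul (-m))
  refine cast ?_ h2
  congr 1
  funext u
  unfold ge
  ring

lemma eg_ge (h : LipB F B) (hB : 0 ≤ B) (ℓ : κ → ℝ) (m : ℝ) (w : κ → ℝ) :
    EG fun u => Real.exp (ge ℓ m F w u) := by
  have := (lip_ge h hB ℓ m w).exp_eg 1
  simpa using this

lemma ip_eq (ℓ : κ → ℝ) (m b : ℝ) (F : (κ → ℝ) → ℝ) (y a : κ → ℝ) (θ : ℝ) (z : κ → ℝ) :
    ip ℓ m b F y a θ z = ge ℓ m F (θ • a) (y + b • z) := rfl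

/-- the constant -/
def Kc (m B B2 : ℝ) (a : κ → ℝ) : ℝ := m * (B * ∑ e, |a e|) + m * (B2 * (∑ e, |a e|) ^ 2)

theorem pd_inner (h : C2 F D HF B L B2) (hm : 0 ≤ m) (ℓ : κ → ℝ) (b : ℝ) (y a : κ → ℝ) :
    Pd (gI κ) (ip ℓ m b F y a) (ip1 m b D y a) (ip2 m b HF y a) (Kc m B B2 a) := by
  have hl := h.c1.lip
  have hB := h.c1.B0
  have hB2 : 0 ≤ B2 * (∑ e, |a e|) ^ 2 := (abs_nonneg _).trans (abs_sum_H h.bd 0 a)
  have ms : ∀ θ : ℝ, Measurable fun z : κ → ℝ => y + b • z + θ • a := fun θ => by fun_prop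
  have mF : Measurable F := (hl.lip hB).measurable
  refine ⟨fun z θ => ?_, fun z θ => ?_, fun θ z => ?_, fun θ z => ?_, fun θ => ?_, fun θ => ?_,
    fun θ => ?_, ?_⟩
  · have h1 := ((line_F h.c1 (y + b • z) a θ).const_mul m).const_sub
      (∑ e, ℓ e * (y + b • z) e)
    exact h1
  · exact ((line_DD h.dv (y + b • z) a θ).const_mul m).neg
  · unfold ip1 Kc
    rw [abs_neg, abs_mul, abs_of_nonneg hm]
    have h1 := mul_le_mul_of_nonneg_left (abs_sum_D h.c1.bd (y + b • z + θ • a) a) hm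
    have h2 := mul_nonneg hm hB2
    linarith
  · unfold ip2 Kc
    rw [abs_neg, abs_mul, abs_of_nonneg hm]
    have h1 := mul_le_mul_of_nonneg_left (abs_sum_H h.bd (y + b • z + θ • a) a) hm
    have h2 : 0 ≤ m * (B * ∑ e, |a e|) := by positivity
    linarith
  · have h1 : Measurable fun z : κ → ℝ => F (y + b • z + θ • a) := mF.comp (ms θ)
    unfold ip
    exact (by fun_prop : Measurable fun z : κ → ℝ => ∑ e, ℓ e * (y + b • z) e).sub
      (h1.const_mul m)
  · unfold ip1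
    refine ((Finset.measurable_sum _ fun e _ => ?_).const_mul m).neg
    exact ((h.c1.meas e).comp (ms θ)).mul_const _
  · unfold ip2
    refine ((Finset.measurable_sum _ fun e _ => Finset.measurable_sum _ fun f _ => ?_).const_mul
      m).neg
    exact (((h.meas e f).comp (ms θ)).mul_const _).mul_const _
  · exact (EG.add_smul (eg_ge hl hB ℓ m ((0 : ℝ) • a)) y b).integrable

lemma IA_pos (h : LipB F B) (hB : 0 ≤ B) (ℓ : κ → ℝ) (m b : ℝ) (y w : κ → ℝ) :
    0 < IA ℓ m b F y w :=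
  integral_exp_pos (EG.add_smul (eg_ge h hB ℓ m w) y b).integrable

/-- Lipschitz functions grow at most linearly -/
lemma gr_lip {G : (κ → ℝ) → ℝ} (h : Lip G) : H863.PL.Gr G := by
  obtain ⟨K, hK, hb⟩ := h
  refine ⟨G 0, K, fun g => ?_⟩
  have h1 := (le_abs_self _).trans (hb g 0)
  rw [sub_zero] at h1
  have h2 : ‖g‖ ≤ ∑ i, |g i| := by
    refine (pi_norm_le_iff_of_nonneg (Finset.sum_nonneg fun i _ => abs_nonneg _)).2 fun i => ?_
    rw [Real.norm_eq_abs]
    exact Finset.single_le_sum (f := fun i => |g i|) (fun i _ => abs_nonneg _) (Finset.mem_univ i)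
  have h3 := mul_le_mul_of_nonneg_left h2 hK
  linarith

/-- the completion is jointly log-concave -/
theorem conc_IA (h : LipB F B) (hB : 0 ≤ B) (hc : Cv F) (hm : 0 ≤ m) (ℓ : κ → ℝ) (b : ℝ) :
    ConcaveOn ℝ univ fun p : (κ → ℝ) × (κ → ℝ) => Real.log (IA ℓ m b F p.1 p.2) := by
  refine H863.PL.gauss (κ := κ) (E := (κ → ℝ) × (κ → ℝ))
    (fun p z => ∑ e, ℓ e * (p.1 + b • z) e - m * F (p.1 + b • z + p.2)) ?_ ?_ ?_
  · refine ⟨convex_univ, fun p _ q _ s t hs ht hst => ?_⟩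
    have e1 : (s • p + t • q).1.1 + b • (s • p + t • q).2 + (s • p + t • q).1.2 =
        s • (p.1.1 + b • p.2 + p.1.2) + t • (q.1.1 + b • q.2 + q.1.2) := by
      simp only [Prod.smul_fst, Prod.smul_snd, Prod.fst_add, Prod.snd_add, smul_add,
        smul_comm b s, smul_comm b t]
      abel
    have h1 := hc s t hs ht hst (p.1.1 + b • p.2 + p.1.2) (q.1.1 + b • q.2 + q.1.2)
    rw [← e1] at h1
    have e2 : ∑ e, ℓ e * ((s • p + t • q).1.1 + b • (s • p + t • q).2) e =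
        s * ∑ e, ℓ e * (p.1.1 + b • p.2) e + t * ∑ e, ℓ e * (q.1.1 + b • q.2) e := by
      rw [Finset.mul_sum, Finset.mul_sum, ← Finset.sum_add_distrib]
      refine Finset.sum_congr rfl fun e _ => ?_
      simp only [Prod.smul_fst, Prod.smul_snd, Prod.fst_add, Prod.snd_add, Pi.add_apply,
        Pi.smul_apply, smul_eq_mul]
      ring
    have h2 := mul_le_mul_of_nonneg_left h1 hm
    simp only [smul_eq_mul]
    rw [e2]
    nlinarith [h2]
  · intro p
    have mF : Measurable F := (h.lip hB).measurable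
    exact (by fun_prop : Measurable fun z : κ → ℝ => ∑ e, ℓ e * (p.1 + b • z) e).sub
      ((mF.comp (by fun_prop : Measurable fun z : κ → ℝ => p.1 + b • z + p.2)).const_mul m)
  · intro p
    have h1 := lip_ge h hB ℓ m p.2
    obtain ⟨K, hK, hb⟩ := h1
    refine gr_lip ⟨K * |b|, by positivity, fun z z' => ?_⟩
    have h2 := hb (p.1 + b • z) (p.1 + b • z')
    have e : p.1 + b • z - (p.1 + b • z') = b • (z - z') := by
      rw [smul_sub]; abel
    rw [e, norm_smul, Real.norm_eq_abs, ← mul_assoc] at h2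
    exact h2

/-- growth in the position -/
lemma IA_grow (h : LipB F B) (hB : 0 ≤ B) (ℓ : κ → ℝ) (m b : ℝ) (w : κ → ℝ) :
    Lip fun y => Real.log (IA ℓ m b F y w) := by
  obtain ⟨K, hK, hb⟩ := lip_ge h hB ℓ m w
  have key : ∀ y y', Real.log (IA ℓ m b F y w) ≤ Real.log (IA ℓ m b F y' w) + K * ‖y - y'‖ := by
    intro y y'
    rw [← Real.log_exp (K * ‖y - y'‖), ← Real.log_mul (IA_pos h hB ℓ m b y' w).ne'
      (Real.exp_pos _).ne']
    refine Real.log_le_log (IA_pos h hB ℓ m b y w) ?_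
    unfold IA
    rw [← integral_mul_const]
    refine integral_mono (EG.add_smul (eg_ge h hB ℓ m w) y b).integrable
      ((EG.add_smul (eg_ge h hB ℓ m w) y' b).integrable.mul_const _) fun z => ?_
    simp only
    rw [← Real.exp_add]
    refine Real.exp_le_exp.2 ?_
    have h1 := (le_abs_self _).trans (hb (y + b • z) (y' + b • z))
    rw [add_sub_add_right_eq_sub] at h1
    unfold ge at h1
    linarith
  refine ⟨K, hK, fun y y' => ?_⟩
  rw [abs_le]
  have h1 := key y y'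
  have h2 := key y' y
  rw [norm_sub_rev] at h2
  constructor <;> linarith

end Vale.Agent.P146.H773
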