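import Vale.Agent.P146.H773.So

/-!
Derivatives of the logarithm of `∫ exp (p θ)`.
-/

open MeasureTheory ProbabilityTheory Filter Topology Set

namespace Vale.Agent.P146.H773

set_option linter.unusedSectionVars false

variable {Ω : Type*} [MeasurableSpace Ω] (μ : Measure Ω) (p p1 p2 : ℝ → Ω → ℝ)

/-- the first derivative of `log ∫ exp (p θ)` -/
noncomputable def L1 (θ : ℝ) : ℝ := (∫ ω, Real.exp (p θ ω) * p1 θ ω ∂μ) / ∫ ω, Real.exp (p θ ω) ∂μ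

/-- the second derivative of `log ∫ exp (p θ)` -/
noncomputable def L2 (θ : ℝ) : ℝ :=
  (∫ ω, Real.exp (p θ ω) * (p1 θ ω ^ 2 + p2 θ ω) ∂μ) / (∫ ω, Real.exp (p θ ω) ∂μ) -
    L1 μ p p1 θ ^ 2

variable {μ p p1 p2} [IsProbabilityMeasure μ] {C : ℝ}

/-- the data -/
structure Pd (μ : Measure Ω) (p p1 p2 : ℝ → Ω → ℝ) (C : ℝ) : Prop where
  hp : ∀ ω θ, HasDerivAt (fun θ => p θ ω) (p1 θ ω) θ
  hp1 : ∀ ω θ, HasDerivAt (fun θ => p1 θ ω) (p2 θ ω) θ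
  b1 : ∀ θ ω, |p1 θ ω| ≤ C
  b2 : ∀ θ ω, |p2 θ ω| ≤ C
  m0 : ∀ θ, Measurable (p θ)
  m1 : ∀ θ, Measurable (p1 θ)
  m2 : ∀ θ, Measurable (p2 θ)
  i0 : Integrable (fun ω => Real.exp (p 0 ω)) μ

namespace Pd

variable (h : Pd μ p p1 p2 C)

include h

lemma int (θ : ℝ) : Integrable (fun ω => Real.exp (p θ ω)) μ :=
  int_exp_of_lip h.hp h.b1 h.m0 h.i0 θ

lemma pos (θ : ℝ) : 0 < ∫ ω, Real.exp (p θ ω) ∂μ := integral_exp_pos (h.int θ)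

lemma C0 : 0 ≤ C := by
  have : Nonempty Ω := nonempty_of_isProbabilityMeasure μ
  obtain ⟨ω⟩ := this
  exact (abs_nonneg _).trans (h.b1 0 ω)

lemma d0 (θ : ℝ) : HasDerivAt (fun θ => ∫ ω, Real.exp (p θ ω) ∂μ)
    (∫ ω, Real.exp (p θ ω) * p1 θ ω ∂μ) θ := by
  have h' := di (μ := μ) (q := fun _ _ => 1) (q1 := fun _ _ => 0) (K := 1) h.hp h.b1
    (fun ω θ => hasDerivAt_const θ (1 : ℝ)) (fun _ _ => by simp) (fun _ _ => by simp) h.m0 h.m1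
    (fun _ => measurable_const) (fun _ => measurable_const) h.i0 θ
  simpa using h'

lemma d1 (θ : ℝ) : HasDerivAt (fun θ => ∫ ω, Real.exp (p θ ω) * p1 θ ω ∂μ)
    (∫ ω, Real.exp (p θ ω) * (p1 θ ω ^ 2 + p2 θ ω) ∂μ) θ := by
  have h' := di (μ := μ) (q := p1) (q1 := p2) (K := C) h.hp h.b1 h.hp1 h.b1 h.b2 h.m0 h.m1 h.m1
    h.m2 h.i0 θ
  refine h'.congr_deriv ?_
  refine integral_congr_ae (Filter.Eventually.of_forall fun ω => ?_)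
  simp only
  ring

lemma dlog (θ : ℝ) : HasDerivAt (fun θ => Real.log (∫ ω, Real.exp (p θ ω) ∂μ))
    (L1 μ p p1 θ) θ := (h.d0 θ).log (h.pos θ).ne'

lemma dL1 (θ : ℝ) : HasDerivAt (L1 μ p p1) (L2 μ p p1 p2 θ) θ := by
  have h' := (h.d1 θ).div (h.d0 θ) (h.pos θ).ne'
  refine h'.congr_deriv ?_
  have h0 := (h.pos θ).ne'
  unfold L2 L1
  field_simp

/-- bounded averages -/
lemma avg_le {q : Ω → ℝ} {K : ℝ} (hq : ∀ ω, |q ω| ≤ K) (hm : Measurable q) (θ : ℝ) :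
    |(∫ ω, Real.exp (p θ ω) * q ω ∂μ) / ∫ ω, Real.exp (p θ ω) ∂μ| ≤ K := by
  rw [abs_div, abs_of_pos (h.pos θ), div_le_iff₀ (h.pos θ), ← integral_const_mul]
  refine (abs_integral_le_integral_abs).trans (integral_mono_of_nonneg
    (Filter.Eventually.of_forall fun _ => abs_nonneg _) ((h.int θ).const_mul K)
    (Filter.Eventually.of_forall fun ω => ?_))
  simp only
  rw [abs_mul, abs_of_pos (Real.exp_pos _), mul_comm K]
  exact mul_le_mul_of_nonneg_left (hq ω) (Real.exp_pos _).le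

lemma abs_L1 (θ : ℝ) : |L1 μ p p1 θ| ≤ C := h.avg_le (h.b1 θ) (h.m1 θ) θ

lemma abs_L2 (θ : ℝ) : |L2 μ p p1 p2 θ| ≤ 2 * C ^ 2 + C := by
  have hC := h.C0
  have h1 : |(∫ ω, Real.exp (p θ ω) * (p1 θ ω ^ 2 + p2 θ ω) ∂μ) /
      ∫ ω, Real.exp (p θ ω) ∂μ| ≤ C ^ 2 + C := by
    refine h.avg_le (fun ω => ?_) (((h.m1 θ).pow_const 2).add (h.m2 θ)) θ
    refine (abs_add_le _ _).trans (add_le_add ?_ (h.b2 θ ω))
    rw [abs_pow]
    exact pow_le_pow_left₀ (abs_nonneg _) (h.b1 θ ω) 2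
  have h2 : |L1 μ p p1 θ ^ 2| ≤ C ^ 2 := by
    rw [abs_pow]
    exact pow_le_pow_left₀ (abs_nonneg _) (h.abs_L1 θ) 2
  unfold L2
  refine (abs_sub _ _).trans ?_
  linarith

end Pd

end Vale.Agent.P146.H773
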