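import Vale.Agent.P146.H773.Ineq

/-!
The inequality (b): second order condition of the functional of two replicas with the same
completion.
-/

open MeasureTheory ProbabilityTheory Filter Topology Set

namespace Vale.Agent.P146.H773

open Vale.Agent.P157.Lv Vale.Agent.P146.H425 Vale.Agent.P146.H785 Vale.Agent.P146.H325
open Vale.Agent.P146.H332

set_option linter.unusedSectionVars false

section gen

variable {κ : Type} [Fintype κ] {F : (κ → ℝ) → ℝ} {D : κ → (κ → ℝ) → ℝ}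
  {HF : κ → κ → (κ → ℝ) → ℝ} {B L B2 x m b c : ℝ}

/-- the exponent -/
noncomputable def oq (ℓ d : κ → ℝ) (m b c x : ℝ) (F : (κ → ℝ) → ℝ) (θ : ℝ) (z : κ → ℝ) : ℝ :=
  Real.log (IA ℓ m b F (c • z) 0) - x * W x b F (c • z + θ • d)

/-- its derivative -/
noncomputable def oq1 (d : κ → ℝ) (b c x : ℝ) (F : (κ → ℝ) → ℝ) (D : κ → (κ → ℝ) → ℝ)
    (θ : ℝ) (z : κ → ℝ) : ℝ :=
  -(x * ∑ e, DW x b F D e (c • z + θ • d) * d e)

/-- its second derivative -/
noncomputable def oq2 (d : κ → ℝ) (b c x : ℝ) (F : (κ → ℝ) → ℝ) (D : κ → (κ → ℝ) → ℝ)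
    (HF : κ → κ → (κ → ℝ) → ℝ) (θ : ℝ) (z : κ → ℝ) : ℝ :=
  -(x * ∑ e, ∑ f, HW x b F D HF e f (c • z + θ • d) * d e * d f)

lemma oq_d (h : C2 F D HF B L B2) (hx : 0 < x) (ℓ d z : κ → ℝ) (θ : ℝ) :
    HasDerivAt (fun θ => oq ℓ d m b c x F θ z) (oq1 d b c x F D θ z) θ := by
  have h3 := ((line_F (h.c1.W' hx b) (c • z) d θ).const_mul x).const_sub
    (Real.log (IA ℓ m b F (c • z) 0))
  exact h3

lemma oq_d1 (h : C2 F D HF B L B2) (d z : κ → ℝ) (θ : ℝ) :
    HasDerivAt (fun θ => oq1 d b c x F D θ z) (oq2 d b c x F D HF θ z) θ :=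
  ((line_DD (HW_dv h x b) (c • z) d θ).const_mul x).neg

/-- the constant -/
noncomputable def Kq (x B B2 : ℝ) (d : κ → ℝ) : ℝ :=
  x * (B * ∑ e, |d e|) + x * ((B2 + 2 * x * B ^ 2) * (∑ e, |d e|) ^ 2)

lemma oq1_bd (h : C2 F D HF B L B2) (hx : 0 < x) (d : κ → ℝ) (θ : ℝ) (z : κ → ℝ) :
    |oq1 d b c x F D θ z| ≤ Kq x B B2 d ∧ |oq2 d b c x F D HF θ z| ≤ Kq x B B2 d := by
  have hW := h.W hx b
  have a5 := abs_sum_D hW.c1.bd (c • z + θ • d) d
  have a6 := abs_sum_H hW.bd (c • z + θ • d) d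
  have m5 := mul_nonneg hx.le ((abs_nonneg _).trans a5)
  have m6 := mul_nonneg hx.le ((abs_nonneg _).trans a6)
  have b5 := mul_le_mul_of_nonneg_left a5 hx.le
  have b6 := mul_le_mul_of_nonneg_left a6 hx.le
  constructor
  · unfold oq1 Kq
    rw [abs_neg, abs_mul, abs_of_pos hx]
    linarith
  · unfold oq2 Kq
    rw [abs_neg, abs_mul, abs_of_pos hx]
    linarith

lemma meas_oq1 (h : C2 F D HF B L B2) (d : κ → ℝ) (θ : ℝ) :
    Measurable (oq1 d b c x F D θ) := by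
  refine (Measurable.const_mul (Finset.measurable_sum _ fun e _ => ?_) _).neg
  exact ((Ax_meas h.c1.lip h.c1.B0 (h.egD e) x b).comp (by fun_prop)).mul_const _

lemma meas_oq2 (h : C2 F D HF B L B2) (d : κ → ℝ) (θ : ℝ) :
    Measurable (oq2 d b c x F D HF θ) := by
  refine (Measurable.const_mul (Finset.measurable_sum _ fun e _ =>
      Finset.measurable_sum _ fun f _ => ?_) _).neg
  exact (((HW_meas h x b e f).comp (by fun_prop)).mul_const _).mul_const _

lemma lip_oq (h : C2 F D HF B L B2) (hx : 0 < x) (ℓ d : κ → ℝ) (θ : ℝ) :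
    Lip (oq ℓ d m b c x F θ) := by
  have h1 := lip_comp (IA_grow h.c1.lip h.c1.B0 ℓ m b 0) c 0
  have h3 := lip_comp ((h.c1.W' hx b).lip.lip h.c1.B0) c (θ • d)
  simp only [add_zero] at h1
  have h4 := h1.add (h3.const_mul (-x))
  refine cast ?_ h4
  congr 1
  funext z
  unfold oq
  ring

lemma oq_conc (h : C2 F D HF B L B2) (hc : Cv F) (hm : 0 ≤ m) (hx : 0 < x) (ℓ d : κ → ℝ) :
    ConcaveOn ℝ univ fun p : ℝ × (κ → ℝ) => oq ℓ d m b c x F p.1 p.2 := by
  refine ⟨convex_univ, fun p _ q _ s t hs ht hst => ?_⟩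
  have e1 : s • ((c • p.2, 0) : (κ → ℝ) × (κ → ℝ)) + t • (c • q.2, (0 : κ → ℝ)) =
      (c • (s • p + t • q).2, 0) := by
    refine Prod.ext ?_ ?_
    · simp only [Prod.smul_fst, Prod.fst_add, Prod.snd_add, Prod.smul_snd, smul_add,
        smul_comm c s, smul_comm c t]
    · simp only [Prod.smul_snd, Prod.snd_add, smul_zero, add_zero]
  have h1 := (conc_IA h.c1.lip h.c1.B0 hc hm ℓ b).2 (mem_univ (c • p.2, 0))
    (mem_univ (c • q.2, 0)) hs ht hst
  rw [e1] at h1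
  have h3 := R1.cv_W h.c1 hc hx b s t hs ht hst (c • p.2 + p.1 • d) (c • q.2 + q.1 • d)
  have e2 : s • (c • p.2 + p.1 • d) + t • (c • q.2 + q.1 • d) =
      c • (s • p + t • q).2 + (s • p + t • q).1 • d := by
    simp only [Prod.smul_snd, Prod.snd_add, Prod.fst_add, Prod.smul_fst, smul_add, add_smul,
      smul_comm c s, smul_comm c t, smul_smul, smul_eq_mul]
    abel
  rw [e2] at h3
  have h4 := mul_le_mul_of_nonneg_left h3 hx.le
  simp only [smul_eq_mul] at h1 ⊢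
  unfold oq
  nlinarith [h1, h4]

lemma oq_even {χ : κ → ℝ} (hχ : ∀ e, χ e ^ 2 = 1) (hF : ∀ u, F (flp χ u) = F u)
    (hm : Measurable F) {ℓ d : κ → ℝ} (hl : flp χ ℓ = ℓ) (hd : flp χ d = -d) (m b c x θ : ℝ)
    (z : κ → ℝ) : oq ℓ d m b c x F (-θ) (flp χ z) = oq ℓ d m b c x F θ z := by
  unfold oq
  have e1 : c • flp χ z = flp χ (c • z) := (flp_smul χ z c).symm
  have e2 : (0 : κ → ℝ) = flp χ 0 := by funext e; simp [flp]
  have e4 : (-θ) • d = flp χ (θ • d) := by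
    rw [flp_smul, hd]
    simp
  have e5 : IA ℓ m b F (flp χ (c • z)) 0 = IA ℓ m b F (c • z) 0 := by
    conv_lhs => rw [e2, IA_flp hχ hF hm, hl]
  rw [e1, e5, e4, ← flp_add, W_flp hχ hF hm]

/-- **The one completion inequality.** -/
theorem one_le (h : C2 F D HF B L B2) (hc : Cv F) (hm : 0 ≤ m) (hx : 0 < x)
    {χ : κ → ℝ} (hχ : ∀ e, χ e ^ 2 = 1) (hF : ∀ u, F (flp χ u) = F u)
    {ℓ d : κ → ℝ} (hl : flp χ ℓ = ℓ) (hd : flp χ d = -d) (b c : ℝ) :
    Integrable (fun z => Real.exp (oq ℓ d m b c x F 0 z) *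
      (oq1 d b c x F D 0 z ^ 2 + oq2 d b c x F D HF 0 z)) (gI κ) ∧
    ∫ z, Real.exp (oq ℓ d m b c x F 0 z) *
      (oq1 d b c x F D 0 z ^ 2 + oq2 d b c x F D HF 0 z) ∂(gI κ) ≤ 0 := by
  have hmF : Measurable F := (h.c1.lip.lip h.c1.B0).measurable
  have hL : ∀ θ, Lip (oq ℓ d m b c x F θ) := fun θ => lip_oq h hx ℓ d θ
  have hi : ∀ θ, Integrable (fun z => Real.exp (oq ℓ d m b c x F θ z)) (gI κ) := fun θ =>
    H863.PL.integrable_of_gr (hL θ).measurable (gr_lip (hL θ))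
  constructor
  · refine (hi 0).mul_bdd (c := Kq x B B2 d ^ 2 + Kq x B B2 d)
      (((meas_oq1 h d 0).pow_const 2).add (meas_oq2 h d 0)).aestronglyMeasurable
      (Filter.Eventually.of_forall fun z => ?_)
    rw [Real.norm_eq_abs]
    obtain ⟨h1, h2⟩ := oq1_bd (b := b) (c := c) h hx d 0 z
    refine (abs_add_le _ _).trans (add_le_add ?_ h2)
    rw [abs_pow]
    exact pow_le_pow_left₀ (abs_nonneg _) h1 2
  refine so_le (C := Kq x B B2 d) (p := oq ℓ d m b c x F) (p1 := oq1 d b c x F D)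
    (p2 := oq2 d b c x F D HF)
    (fun z θ => oq_d h hx ℓ d z θ) (fun z θ => oq_d1 h d z θ)
    (fun θ z => (oq1_bd h hx d θ z).1) (fun θ z => (oq1_bd h hx d θ z).2)
    (fun θ => (hL θ).measurable) (fun θ => meas_oq1 h d θ) (fun θ => meas_oq2 h d θ)
    (hi 0) fun θ => ?_
  have hcv := H863.PL.gauss (κ := κ) (E := ℝ) (oq ℓ d m b c x F) (oq_conc h hc hm hx ℓ d)
    (fun θ => (hL θ).measurable) (fun θ => gr_lip (hL θ))
  have hev : ∫ z, Real.exp (oq ℓ d m b c x F (-θ) z) ∂(gI κ) =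
      ∫ z, Real.exp (oq ℓ d m b c x F θ z) ∂(gI κ) := by
    have h5 := H325.int_flip hχ (Real.measurable_exp.comp (hL (-θ)).measurable)
    simp only [Function.comp_apply] at h5
    rw [← h5]
    refine integral_congr_ae (Filter.Eventually.of_forall fun z => ?_)
    simp only
    congr 1
    exact oq_even hχ hF hmF hl hd m b c x θ z
  have h1 := hcv.2 (mem_univ θ) (mem_univ (-θ)) (by norm_num : (0:ℝ) ≤ 1/2)
    (by norm_num : (0:ℝ) ≤ 1/2) (by norm_num)
  simp only [smul_eq_mul] at h1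
  have e0 : (1:ℝ) / 2 * θ + 1 / 2 * -θ = 0 := by ring
  rw [e0] at h1
  have h2 : Real.log (∫ z, Real.exp (oq ℓ d m b c x F θ z) ∂(gI κ)) ≤
      Real.log (∫ z, Real.exp (oq ℓ d m b c x F 0 z) ∂(gI κ)) := by
    have h3 : Real.log (∫ z, Real.exp (oq ℓ d m b c x F (-θ) z) ∂(gI κ)) =
      Real.log (∫ z, Real.exp (oq ℓ d m b c x F θ z) ∂(gI κ)) := by rw [hev]
    have h1' : 1 / 2 * Real.log (∫ z, Real.exp (oq ℓ d m b c x F θ z) ∂(gI κ)) +
      1 / 2 * Real.log (∫ z, Real.exp (oq ℓ d m b c x F (-θ) z) ∂(gI κ)) ≤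
      Real.log (∫ z, Real.exp (oq ℓ d m b c x F 0 z) ∂(gI κ)) := h1
    linarith
  exact (Real.log_le_log_iff (integral_exp_pos (hi θ)) (integral_exp_pos (hi 0))).1 h2

end gen

variable {κ : Type} [Fintype κ] [DecidableEq κ] {X : Type} [Fintype X] [Nonempty X]
  {k : ℝ} {S : κ → X → ℝ} {x b c B L B2 : ℝ}

lemma gw_exp (τ : X) (u : κ → ℝ) :
    gw k S τ u = Real.exp (∑ e, dir k S τ e * u e - lz k S u) := by
  have h2 : Real.exp (lz k S u) = Zp k S u := by
    unfold lz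
    rw [Real.exp_log (Zp_pos k S _)]
  unfold gw ez
  rw [Real.exp_sub, h2]
  congr 2
  rw [Finset.mul_sum]
  exact Finset.sum_congr rfl fun e _ => by unfold dir; ring

lemma ev_oq (hx : 0 < x) (ρ τ : X) (z : κ → ℝ) :
    Real.exp (oq (dir k S ρ + dir k S τ) (dir k S τ - dir k S ρ) (2 - x) b c x (lz k S) 0 z) =
      Ax x b (lz k S) (fun u => gw k S ρ u * gw k S τ u) (c • z) := by
  have hN := Nf_pos (k := k) (S := S) (x := x) (b := b) (y := c • z)
  have h1 := H461.int_planted k S x b (c • z) ρ (gw k S τ)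
  have e1 : IA (dir k S ρ + dir k S τ) (2 - x) b (lz k S) (c • z) 0 =
      Nf k S x b (c • z) * Ax x b (lz k S) (fun u => gw k S ρ u * gw k S τ u) (c • z) := by
    rw [Nf, ← h1]
    unfold IA
    refine integral_congr_ae (Filter.Eventually.of_forall fun z' => ?_)
    simp only
    rw [gw_exp, ← Real.exp_add]
    congr 1
    simp only [add_zero, Pi.add_apply (dir k S ρ), add_mul, Finset.sum_add_distrib]
    have e2 : ∑ e, dir k S ρ e * (c • z + b • z') e =
        k * ∑ e, S e ρ * (c • z + b • z') e := by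
      rw [Finset.mul_sum]
      exact Finset.sum_congr rfl fun e _ => by unfold dir; ring
    rw [e2]
    ring
  have hpos := IA_pos (c11_lz k S).lip (c11_lz k S).B0 (dir k S ρ + dir k S τ) (2 - x) b (c • z) 0
  unfold oq
  rw [Real.exp_sub, Real.exp_log hpos, e1, zero_smul, add_zero,
    (c11_lz k S).lip.exp_W (c11_lz k S).B0 hx]
  rw [show (∫ z', Real.exp (x * lz k S (c • z + b • z')) ∂(gI κ)) = Nf k S x b (c • z) from rfl]
  field_simp

/-- the sum over the configurations inside the average -/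
lemma sum_pair (h : C2 (lz k S) (Dg k S) (Hg k S) B L B2) (y : κ → ℝ) (e f : κ) :
    ∑ ρ, ∑ τ, Ax x b (lz k S) (fun u => gw k S ρ u * gw k S τ u) y *
      ((dir k S τ - dir k S ρ) e * (dir k S τ - dir k S ρ) f) =
      2 * Ax x b (lz k S) (Hg k S e f) y := by
  have hl := h.c1.lip
  have hB := h.c1.B0
  have e1 : ∀ ρ τ, Ax x b (lz k S) (fun u => gw k S ρ u * gw k S τ u) y *
      ((dir k S τ - dir k S ρ) e * (dir k S τ - dir k S ρ) f) =
      Ax x b (lz k S) (fun u => ((dir k S τ - dir k S ρ) e * (dir k S τ - dir k S ρ) f) *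
        (gw k S ρ u * gw k S τ u)) y := fun ρ τ => by
    rw [Ax_const_mul, mul_comm]
  have hE : ∀ ρ τ, EG fun u => ((dir k S τ - dir k S ρ) e * (dir k S τ - dir k S ρ) f) *
        (gw k S ρ u * gw k S τ u) := fun ρ τ =>
    ((H461.eg_gw k S ρ).mul (H461.eg_gw k S τ)).const_mul _
  simp_rw [e1]
  rw [← Ax_const_mul]
  have e2 : ∀ ρ, ∑ τ, Ax x b (lz k S) (fun u => ((dir k S τ - dir k S ρ) e *
      (dir k S τ - dir k S ρ) f) * (gw k S ρ u * gw k S τ u)) y =
      Ax x b (lz k S) (fun u => ∑ τ, ((dir k S τ - dir k S ρ) e *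
      (dir k S τ - dir k S ρ) f) * (gw k S ρ u * gw k S τ u)) y := fun ρ =>
    (Ax_sum hl hB _ (fun τ _ => hE ρ τ) x b y).symm
  simp_rw [e2]
  rw [← Ax_sum hl hB _ fun ρ _ => EG.sum _ fun τ _ => hE ρ τ]
  congr 1
  funext u
  have s1 := H461.sum_gw k S u
  have s2 : ∀ e : κ, ∑ ρ, gw k S ρ u * dir k S ρ e = k * H325.av k S (S e) u := by
    intro e
    rw [← H461.sum_gw_mul, Finset.mul_sum]
    exact Finset.sum_congr rfl fun ρ _ => by unfold dir; ring
  have s3 : ∑ ρ, gw k S ρ u * (dir k S ρ e * dir k S ρ f) =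
      k * (k * H325.av k S (fun σ => S e σ * S f σ) u) := by
    rw [← H461.sum_gw_mul, Finset.mul_sum, Finset.mul_sum]
    exact Finset.sum_congr rfl fun ρ _ => by unfold dir; ring
  have e3 : ∀ ρ, ∑ τ, ((dir k S τ - dir k S ρ) e * (dir k S τ - dir k S ρ) f) *
      (gw k S ρ u * gw k S τ u) = gw k S ρ u * (k * (k * H325.av k S (fun σ => S e σ * S f σ) u))
      - (gw k S ρ u * dir k S ρ e) * (k * H325.av k S (S f) u)
      - (gw k S ρ u * dir k S ρ f) * (k * H325.av k S (S e) u)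
      + gw k S ρ u * (dir k S ρ e * dir k S ρ f) * 1 := by
    intro ρ
    rw [← s3, ← s2 e, ← s2 f, ← s1]
    simp only [Finset.mul_sum, ← Finset.sum_sub_distrib, ← Finset.sum_add_distrib]
    refine Finset.sum_congr rfl fun τ _ => ?_
    simp only [Pi.sub_apply]
    ring
  simp_rw [e3]
  rw [Finset.sum_add_distrib, Finset.sum_sub_distrib, Finset.sum_sub_distrib, ← Finset.sum_mul,
    ← Finset.sum_mul, ← Finset.sum_mul, ← Finset.sum_mul, s1, s2, s2, s3]
  unfold Hg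
  ring

variable (k S x b) in
/-- the integrand of (b), left side -/
noncomputable def bL (y : κ → ℝ) : ℝ :=
  ∑ e, ∑ f, DW x b (lz k S) (Dg k S) e y * Ax x b (lz k S) (Hg k S e f) y *
    DW x b (lz k S) (Dg k S) f y

variable (k S x b) in
/-- the integrand of (b), right side -/
noncomputable def bR (y : κ → ℝ) : ℝ :=
  ∑ e, ∑ f, HW x b (lz k S) (Dg k S) (Hg k S) e f y * Ax x b (lz k S) (Hg k S e f) y

/-- **(b), the inequality of two replicas with the same completion.** -/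
theorem conc_b (hS : Swp S) (h : C2 (lz k S) (Dg k S) (Hg k S) B L B2) (hx : 0 < x)
    (hx1 : x ≤ 1) (b c : ℝ) :
    x * ∫ z, bL k S x b (c • z) ∂(gI κ) ≤ ∫ z, bR k S x b (c • z) ∂(gI κ) := by
  have hl := h.c1.lip
  have hB := h.c1.B0
  have hmc : Measurable fun z : κ → ℝ => c • z := by fun_prop
  have eC : ∀ e f, EG fun z : κ → ℝ => Ax x b (lz k S) (Hg k S e f) (c • z) := fun e f =>
    EG.of_bdd ((Ax_meas hl hB (h.egH e f) x b).comp hmc)
      (fun z => Ax_abs_le hl hB (h.meas e f) (h.bd e f) x b (c • z))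
  have eV : ∀ e, EG fun z : κ → ℝ => DW x b (lz k S) (Dg k S) e (c • z) := fun e =>
    EG.of_bdd ((Ax_meas hl hB (h.egD e) x b).comp hmc)
      (fun z => Ax_abs_le hl hB (h.c1.meas e) (h.c1.bd e) x b (c • z))
  have eH : ∀ e f, EG fun z : κ → ℝ => HW x b (lz k S) (Dg k S) (Hg k S) e f (c • z) :=
    fun e f => EG.of_bdd ((HW_meas h x b e f).comp hmc) (fun z => HW_bd h hx.le b e f (c • z))
  have iL : Integrable (fun z => bL k S x b (c • z)) (gI κ) := by
    refine EG.integrable (EG.sum _ fun e _ => EG.sum _ fun f _ => ?_)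
    exact ((eV e).mul (eC e f)).mul (eV f)
  have iR : Integrable (fun z => bR k S x b (c • z)) (gI κ) := by
    refine EG.integrable (EG.sum _ fun e _ => EG.sum _ fun f _ => ?_)
    exact (eH e f).mul (eC e f)
  set Q : X → X → (κ → ℝ) → ℝ := fun ρ τ z =>
    Real.exp (oq (dir k S ρ + dir k S τ) (dir k S τ - dir k S ρ) (2 - x) b c x (lz k S) 0 z) *
      (oq1 (dir k S τ - dir k S ρ) b c x (lz k S) (Dg k S) 0 z ^ 2 +
        oq2 (dir k S τ - dir k S ρ) b c x (lz k S) (Dg k S) (Hg k S) 0 z) with hQ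
  have hq : ∀ ρ τ, Integrable (Q ρ τ) (gI κ) ∧ ∫ z, Q ρ τ z ∂(gI κ) ≤ 0 := by
    intro ρ τ
    obtain ⟨χ, π, hχ, hSπ, h1, h2⟩ := hS ρ τ
    have hχ2 : ∀ e, χ e ^ 2 = 1 := fun e => by
      rcases hχ e with h | h <;> rw [h] <;> norm_num
    have hl1 : flp χ (dir k S ρ) = dir k S τ := by
      funext e
      unfold flp dir
      rw [← h1, hSπ]
      ring
    have hl2 : flp χ (dir k S τ) = dir k S ρ := by
      rw [← hl1, flp_flp hχ2]
    have hneg : ∀ w : κ → ℝ, flp χ (-w) = -flp χ w := fun w => by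
      funext e; simp [flp]
    refine one_le h (cv_lz k S) (by linarith : 0 ≤ 2 - x) hx hχ2 (lz_flp hSπ) ?_ ?_ b c
    · rw [flp_add, hl1, hl2, add_comm]
    · rw [sub_eq_add_neg, flp_add, hneg, hl1, hl2]
      abel
  have h1 : ∫ z, ∑ ρ, ∑ τ, Q ρ τ z ∂(gI κ) ≤ 0 := by
    rw [integral_finsetSum _ fun ρ _ => integrable_finsetSum _ fun τ _ => (hq ρ τ).1]
    refine Finset.sum_nonpos fun ρ _ => ?_
    rw [integral_finsetSum _ fun τ _ => (hq ρ τ).1]
    exact Finset.sum_nonpos fun τ _ => (hq ρ τ).2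
  have e1 : ∀ z, ∑ ρ, ∑ τ, Q ρ τ z = 2 * x * (x * bL k S x b (c • z) - bR k S x b (c • z)) := by
    intro z
    have e2 : ∀ ρ τ, Q ρ τ z = ∑ e, ∑ f,
        (x ^ 2 * (DW x b (lz k S) (Dg k S) e (c • z) * DW x b (lz k S) (Dg k S) f (c • z)) -
          x * HW x b (lz k S) (Dg k S) (Hg k S) e f (c • z)) *
        (Ax x b (lz k S) (fun u => gw k S ρ u * gw k S τ u) (c • z) *
          ((dir k S τ - dir k S ρ) e * (dir k S τ - dir k S ρ) f)) := by
      intro ρ τ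
      simp only [hQ]
      rw [ev_oq hx]
      unfold oq1 oq2
      simp only [zero_smul, add_zero]
      rw [neg_sq, mul_pow, sq (∑ e, DW x b (lz k S) (Dg k S) e (c • z) *
        (dir k S τ - dir k S ρ) e), Finset.sum_mul_sum]
      simp only [Finset.mul_sum, ← Finset.sum_neg_distrib, ← Finset.sum_add_distrib]
      refine Finset.sum_congr rfl fun e _ => Finset.sum_congr rfl fun f _ => ?_
      ring
    simp_rw [e2]
    have e3 : ∀ G : X → X → κ → κ → ℝ, ∑ ρ, ∑ τ, ∑ e, ∑ f, G ρ τ e f =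
        ∑ e, ∑ f, ∑ ρ, ∑ τ, G ρ τ e f := by
      intro G
      have a1 : ∀ ρ, ∑ τ, ∑ e, ∑ f, G ρ τ e f = ∑ e, ∑ τ, ∑ f, G ρ τ e f := fun ρ =>
        Finset.sum_comm
      simp_rw [a1]
      rw [Finset.sum_comm]
      refine Finset.sum_congr rfl fun e _ => ?_
      have a2 : ∀ ρ, ∑ τ, ∑ f, G ρ τ e f = ∑ f, ∑ τ, G ρ τ e f := fun ρ => Finset.sum_comm
      simp_rw [a2]
      rw [Finset.sum_comm]
    rw [e3]
    simp only [← Finset.mul_sum]
    simp_rw [sum_pair h]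
    unfold bL bR
    simp only [Finset.mul_sum, ← Finset.sum_sub_distrib]
    refine Finset.sum_congr rfl fun e _ => Finset.sum_congr rfl fun f _ => ?_
    ring
  simp only [e1] at h1
  rw [integral_const_mul, integral_sub (iL.const_mul x) iR, integral_const_mul] at h1
  have h2 := (mul_nonpos_iff_pos_imp_nonpos.1 h1).1 (by positivity)
  linarith

end Vale.Agent.P146.H773
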