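import Vale.Agent.P146.H773.Inner
import Vale.Agent.P146.H640.Pl

/-!
The two replica functional along the line `θ (ℓ' - ℓ)`: it is log-concave and even in `θ`, so its
second derivative at `0` is nonpositive.
-/

open MeasureTheory ProbabilityTheory Filter Topology Set

namespace Vale.Agent.P146.H773

open Vale.Agent.P157.Lv Vale.Agent.P146.H425 Vale.Agent.P146.H785

set_option linter.unusedSectionVars false

variable {κ : Type} [Fintype κ] {F : (κ → ℝ) → ℝ} {D : κ → (κ → ℝ) → ℝ}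
  {HF : κ → κ → (κ → ℝ) → ℝ} {B L B2 x m b c : ℝ}

/-- the exponent of the two replica functional -/
noncomputable def op (ℓ ℓ' : κ → ℝ) (m b c x : ℝ) (F : (κ → ℝ) → ℝ) (θ : ℝ) (z : κ → ℝ) : ℝ :=
  Real.log (IA ℓ m b F (c • z) (θ • ℓ')) + Real.log (IA ℓ' m b F (c • z) (θ • (-ℓ))) -
    2 * x * W x b F (c • z + θ • (ℓ' - ℓ))

/-- its derivative -/
noncomputable def op1 (ℓ ℓ' : κ → ℝ) (m b c x : ℝ) (F : (κ → ℝ) → ℝ) (D : κ → (κ → ℝ) → ℝ)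
    (θ : ℝ) (z : κ → ℝ) : ℝ :=
  L1 (gI κ) (ip ℓ m b F (c • z) ℓ') (ip1 m b D (c • z) ℓ') θ +
    L1 (gI κ) (ip ℓ' m b F (c • z) (-ℓ)) (ip1 m b D (c • z) (-ℓ)) θ -
    2 * x * ∑ e, DW x b F D e (c • z + θ • (ℓ' - ℓ)) * (ℓ' - ℓ) e

/-- its second derivative -/
noncomputable def op2 (ℓ ℓ' : κ → ℝ) (m b c x : ℝ) (F : (κ → ℝ) → ℝ) (D : κ → (κ → ℝ) → ℝ)
    (HF : κ → κ → (κ → ℝ) → ℝ) (θ : ℝ) (z : κ → ℝ) : ℝ :=
  L2 (gI κ) (ip ℓ m b F (c • z) ℓ') (ip1 m b D (c • z) ℓ') (ip2 m b HF (c • z) ℓ') θ +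
    L2 (gI κ) (ip ℓ' m b F (c • z) (-ℓ)) (ip1 m b D (c • z) (-ℓ)) (ip2 m b HF (c • z) (-ℓ)) θ -
    2 * x * ∑ e, ∑ f, HW x b F D HF e f (c • z + θ • (ℓ' - ℓ)) * (ℓ' - ℓ) e * (ℓ' - ℓ) f

lemma op_d (h : C2 F D HF B L B2) (hm : 0 ≤ m) (hx : 0 < x) (ℓ ℓ' : κ → ℝ) (z : κ → ℝ) (θ : ℝ) :
    HasDerivAt (fun θ => op ℓ ℓ' m b c x F θ z) (op1 ℓ ℓ' m b c x F D θ z) θ := by
  have h1 := (pd_inner h hm ℓ b (c • z) ℓ').dlog θ
  have h2 := (pd_inner h hm ℓ' b (c • z) (-ℓ)).dlog θ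
  have h3 := (line_F (h.c1.W' hx b) (c • z) (ℓ' - ℓ) θ).const_mul (2 * x)
  exact (h1.add h2).sub h3

lemma op_d1 (h : C2 F D HF B L B2) (hm : 0 ≤ m) (ℓ ℓ' : κ → ℝ) (z : κ → ℝ)
    (θ : ℝ) :
    HasDerivAt (fun θ => op1 ℓ ℓ' m b c x F D θ z) (op2 ℓ ℓ' m b c x F D HF θ z) θ := by
  have h1 := (pd_inner h hm ℓ b (c • z) ℓ').dL1 θ
  have h2 := (pd_inner h hm ℓ' b (c • z) (-ℓ)).dL1 θ
  have h3 := (line_DD (HW_dv h x b) (c • z) (ℓ' - ℓ) θ).const_mul (2 * x)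
  exact (h1.add h2).sub h3

/-- the constant -/
noncomputable def Ko (m x B B2 : ℝ) (ℓ ℓ' : κ → ℝ) : ℝ :=
  (Kc m B B2 ℓ' + Kc m B B2 (-ℓ) + 2 * x * (B * ∑ e, |(ℓ' - ℓ) e|)) +
  ((2 * Kc m B B2 ℓ' ^ 2 + Kc m B B2 ℓ') + (2 * Kc m B B2 (-ℓ) ^ 2 + Kc m B B2 (-ℓ)) +
    2 * x * ((B2 + 2 * x * B ^ 2) * (∑ e, |(ℓ' - ℓ) e|) ^ 2))

lemma op1_bd (h : C2 F D HF B L B2) (hm : 0 ≤ m) (hx : 0 < x) (ℓ ℓ' : κ → ℝ) (θ : ℝ)
    (z : κ → ℝ) : |op1 ℓ ℓ' m b c x F D θ z| ≤ Ko m x B B2 ℓ ℓ' ∧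
      |op2 ℓ ℓ' m b c x F D HF θ z| ≤ Ko m x B B2 ℓ ℓ' := by
  have p1 := pd_inner h hm ℓ b (c • z) ℓ'
  have p2 := pd_inner h hm ℓ' b (c • z) (-ℓ)
  have a1 := p1.abs_L1 θ
  have a2 := p2.abs_L1 θ
  have a3 := p1.abs_L2 θ
  have a4 := p2.abs_L2 θ
  have n1 := p1.C0
  have n2 := p2.C0
  have hW := h.W hx b
  have a5 := abs_sum_D hW.c1.bd (c • z + θ • (ℓ' - ℓ)) (ℓ' - ℓ)
  have a6 := abs_sum_H hW.bd (c • z + θ • (ℓ' - ℓ)) (ℓ' - ℓ)
  have n5 := (abs_nonneg _).trans a5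
  have n6 := (abs_nonneg _).trans a6
  have b5 := mul_le_mul_of_nonneg_left a5 (by positivity : (0:ℝ) ≤ 2 * x)
  have b6 := mul_le_mul_of_nonneg_left a6 (by positivity : (0:ℝ) ≤ 2 * x)
  have m5 := mul_nonneg (by positivity : (0:ℝ) ≤ 2 * x) n5
  have m6 := mul_nonneg (by positivity : (0:ℝ) ≤ 2 * x) n6
  have q1 := sq_nonneg (Kc m B B2 ℓ')
  have q2 := sq_nonneg (Kc m B B2 (-ℓ))
  have e : |2 * x| = 2 * x := abs_of_pos (by positivity)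
  constructor
  · unfold op1 Ko
    refine (abs_sub _ _).trans ?_
    refine (add_le_add (abs_add_le _ _) le_rfl).trans ?_
    rw [abs_mul, e]
    linarith
  · unfold op2 Ko
    refine (abs_sub _ _).trans ?_
    refine (add_le_add (abs_add_le _ _) le_rfl).trans ?_
    rw [abs_mul, e]
    linarith

/-! ### measurability -/

lemma meas_num (h : C2 F D HF B L B2) (ℓ : κ → ℝ) (m b c : ℝ) (a : κ → ℝ) (θ : ℝ)
    {q : (κ → ℝ) → ℝ} (hq : EG q) :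
    Measurable fun z : κ → ℝ =>
      ∫ z', Real.exp (ip ℓ m b F (c • z) a θ z') * q (c • z + b • z') ∂(gI κ) := by
  have h1 := (EG.conv ((eg_ge h.c1.lip h.c1.B0 ℓ m (θ • a)).mul hq) b).meas
  exact h1.comp (by fun_prop : Measurable fun z : κ → ℝ => c • z)

lemma eg_q1 (h : C2 F D HF B L B2) (m : ℝ) (w a : κ → ℝ) :
    EG fun u => -(m * ∑ e, D e (u + w) * a e) := by
  have h1 : EG fun u => ∑ e, D e (u + w) * a e := by
    refine EG.of_bdd (C := B * ∑ e, |a e|) ?_ fun u => abs_sum_D h.c1.bd _ _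
    refine Finset.measurable_sum _ fun e _ => ?_
    exact ((h.c1.meas e).comp (by fun_prop)).mul_const _
  have h2 := h1.const_mul (-m)
  refine cast ?_ h2
  congr 1
  funext u
  ring

lemma eg_q2 (h : C2 F D HF B L B2) (m : ℝ) (w a : κ → ℝ) :
    EG fun u => -(m * ∑ e, ∑ f, HF e f (u + w) * a e * a f) := by
  have h1 : EG fun u => ∑ e, ∑ f, HF e f (u + w) * a e * a f := by
    refine EG.of_bdd (C := B2 * (∑ e, |a e|) ^ 2) ?_ fun u => abs_sum_H h.bd _ _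
    refine Finset.measurable_sum _ fun e _ => Finset.measurable_sum _ fun f _ => ?_
    exact (((h.meas e f).comp (by fun_prop)).mul_const _).mul_const _
  have h2 := h1.const_mul (-m)
  refine cast ?_ h2
  congr 1
  funext u
  ring

lemma meas_den (h : C2 F D HF B L B2) (ℓ : κ → ℝ) (m b c : ℝ) (a : κ → ℝ) (θ : ℝ) :
    Measurable fun z : κ → ℝ => ∫ z', Real.exp (ip ℓ m b F (c • z) a θ z') ∂(gI κ) := by
  have h1 := meas_num h ℓ m b c a θ (EG.const 1)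
  simpa using h1

lemma meas_L1 (h : C2 F D HF B L B2) (ℓ : κ → ℝ) (m b c : ℝ) (a : κ → ℝ) (θ : ℝ) :
    Measurable fun z : κ → ℝ => L1 (gI κ) (ip ℓ m b F (c • z) a) (ip1 m b D (c • z) a) θ :=
  (meas_num h ℓ m b c a θ (eg_q1 h m (θ • a) a)).div (meas_den h ℓ m b c a θ)

lemma meas_L2 (h : C2 F D HF B L B2) (ℓ : κ → ℝ) (m b c : ℝ) (a : κ → ℝ) (θ : ℝ) :
    Measurable fun z : κ → ℝ =>
      L2 (gI κ) (ip ℓ m b F (c • z) a) (ip1 m b D (c • z) a) (ip2 m b HF (c • z) a) θ := by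
  have h1 := meas_num h ℓ m b c a θ
    (((eg_q1 h m (θ • a) a).mul (eg_q1 h m (θ • a) a)).add (eg_q2 h m (θ • a) a))
  have h2 : Measurable fun z : κ → ℝ => ∫ z', Real.exp (ip ℓ m b F (c • z) a θ z') *
      (ip1 m b D (c • z) a θ z' ^ 2 + ip2 m b HF (c • z) a θ z') ∂(gI κ) := by
    refine cast ?_ h1
    congr 1
    funext z
    refine integral_congr_ae (Filter.Eventually.of_forall fun z' => ?_)
    simp only [ip1, ip2]
    ring
  exact (h2.div (meas_den h ℓ m b c a θ)).sub ((meas_L1 h ℓ m b c a θ).pow_const 2)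

lemma meas_op1 (h : C2 F D HF B L B2) (ℓ ℓ' : κ → ℝ) (θ : ℝ) :
    Measurable (op1 ℓ ℓ' m b c x F D θ) := by
  refine ((meas_L1 h ℓ m b c ℓ' θ).add (meas_L1 h ℓ' m b c (-ℓ) θ)).sub
    (Measurable.const_mul (Finset.measurable_sum _ fun e _ => ?_) _)
  exact ((Ax_meas h.c1.lip h.c1.B0 (h.egD e) x b).comp (by fun_prop)).mul_const _

lemma meas_op2 (h : C2 F D HF B L B2) (ℓ ℓ' : κ → ℝ) (θ : ℝ) :
    Measurable (op2 ℓ ℓ' m b c x F D HF θ) := by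
  refine ((meas_L2 h ℓ m b c ℓ' θ).add (meas_L2 h ℓ' m b c (-ℓ) θ)).sub
    (Measurable.const_mul (Finset.measurable_sum _ fun e _ =>
      Finset.measurable_sum _ fun f _ => ?_) _)
  exact (((HW_meas h x b e f).comp (by fun_prop)).mul_const _).mul_const _

lemma lip_comp {G : (κ → ℝ) → ℝ} (h : Lip G) (c : ℝ) (v : κ → ℝ) :
    Lip fun z => G (c • z + v) := by
  obtain ⟨K, hK, hb⟩ := h
  refine ⟨K * |c|, by positivity, fun z z' => ?_⟩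
  have h2 := hb (c • z + v) (c • z' + v)
  have e : c • z + v - (c • z' + v) = c • (z - z') := by
    rw [smul_sub]; abel
  rw [e, norm_smul, Real.norm_eq_abs, ← mul_assoc] at h2
  exact h2

lemma lip_op (h : C2 F D HF B L B2) (hx : 0 < x) (ℓ ℓ' : κ → ℝ) (θ : ℝ) :
    Lip (op ℓ ℓ' m b c x F θ) := by
  have h1 := lip_comp (IA_grow h.c1.lip h.c1.B0 ℓ m b (θ • ℓ')) c 0
  have h2 := lip_comp (IA_grow h.c1.lip h.c1.B0 ℓ' m b (θ • (-ℓ))) c 0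
  have h3 := lip_comp ((h.c1.W' hx b).lip.lip h.c1.B0) c (θ • (ℓ' - ℓ))
  simp only [add_zero] at h1 h2
  have h4 := (h1.add h2).add (h3.const_mul (-(2 * x)))
  refine cast ?_ h4
  congr 1
  funext z
  unfold op
  ring

/-! ### concavity -/

lemma op_conc (h : C2 F D HF B L B2) (hc : Cv F) (hm : 0 ≤ m) (hx : 0 < x) (ℓ ℓ' : κ → ℝ) :
    ConcaveOn ℝ univ fun p : ℝ × (κ → ℝ) => op ℓ ℓ' m b c x F p.1 p.2 := by
  refine ⟨convex_univ, fun p _ q _ s t hs ht hst => ?_⟩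
  have e1 : ∀ a : κ → ℝ, s • ((c • p.2, p.1 • a) : (κ → ℝ) × (κ → ℝ)) + t • (c • q.2, q.1 • a) =
      (c • (s • p + t • q).2, (s • p + t • q).1 • a) := by
    intro a
    refine Prod.ext ?_ ?_
    · simp only [Prod.smul_fst, Prod.fst_add, Prod.snd_add, Prod.smul_snd, smul_add,
        smul_comm c s, smul_comm c t]
    · simp only [Prod.smul_snd, Prod.snd_add, Prod.fst_add, Prod.smul_fst, add_smul,
        smul_smul, smul_eq_mul]
  have h1 := (conc_IA h.c1.lip h.c1.B0 hc hm ℓ b).2 (mem_univ (c • p.2, p.1 • ℓ'))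
    (mem_univ (c • q.2, q.1 • ℓ')) hs ht hst
  have h2 := (conc_IA h.c1.lip h.c1.B0 hc hm ℓ' b).2 (mem_univ (c • p.2, p.1 • (-ℓ)))
    (mem_univ (c • q.2, q.1 • (-ℓ))) hs ht hst
  rw [e1] at h1 h2
  have h3 := R1.cv_W h.c1 hc hx b s t hs ht hst (c • p.2 + p.1 • (ℓ' - ℓ))
    (c • q.2 + q.1 • (ℓ' - ℓ))
  have e2 : s • (c • p.2 + p.1 • (ℓ' - ℓ)) + t • (c • q.2 + q.1 • (ℓ' - ℓ)) =
      c • (s • p + t • q).2 + (s • p + t • q).1 • (ℓ' - ℓ) := by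
    simp only [Prod.smul_snd, Prod.snd_add, Prod.fst_add, Prod.smul_fst, smul_add, add_smul,
      smul_comm c s, smul_comm c t, smul_smul, smul_eq_mul]
    abel
  rw [e2] at h3
  have h4 := mul_le_mul_of_nonneg_left h3 (by positivity : (0:ℝ) ≤ 2 * x)
  simp only [smul_eq_mul] at h1 h2 ⊢
  unfold op
  nlinarith [h1, h2, h4]

/-! ### the gauge symmetry -/

/-- flip -/
def flp (χ u : κ → ℝ) : κ → ℝ := fun e => χ e * u e

lemma flp_add (χ u v : κ → ℝ) : flp χ (u + v) = flp χ u + flp χ v := by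
  funext e; simp [flp, mul_add]

lemma flp_smul (χ u : κ → ℝ) (t : ℝ) : flp χ (t • u) = t • flp χ u := by
  funext e; simp only [flp, Pi.smul_apply, smul_eq_mul]; ring

lemma flp_flp {χ : κ → ℝ} (hχ : ∀ e, χ e ^ 2 = 1) (u : κ → ℝ) : flp χ (flp χ u) = u := by
  funext e
  simp only [flp]
  rw [← mul_assoc, ← sq, hχ, one_mul]

lemma W_flp {χ : κ → ℝ} (hχ : ∀ e, χ e ^ 2 = 1) (hF : ∀ u, F (flp χ u) = F u)
    (hm : Measurable F) (x b : ℝ) (y : κ → ℝ) : W x b F (flp χ y) = W x b F y := by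
  unfold W
  congr 2
  have h1 : Measurable fun z : κ → ℝ => Real.exp (x * F (flp χ y + b • z)) :=
    Real.measurable_exp.comp ((hm.comp (by fun_prop)).const_mul x)
  rw [← H325.int_flip hχ h1]
  refine integral_congr_ae (Filter.Eventually.of_forall fun z => ?_)
  simp only
  congr 2
  have e : flp χ y + b • (fun i => χ i * z i) = flp χ (y + b • z) := by
    rw [flp_add, flp_smul]; rfl
  rw [e, hF]

lemma IA_flp {χ : κ → ℝ} (hχ : ∀ e, χ e ^ 2 = 1) (hF : ∀ u, F (flp χ u) = F u)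
    (hm : Measurable F) (ℓ : κ → ℝ) (m b : ℝ) (y w : κ → ℝ) :
    IA ℓ m b F (flp χ y) (flp χ w) = IA (flp χ ℓ) m b F y w := by
  unfold IA
  have h1 : Measurable fun z : κ → ℝ => Real.exp (∑ e, ℓ e * (flp χ y + b • z) e -
      m * F (flp χ y + b • z + flp χ w)) :=
    Real.measurable_exp.comp ((by fun_prop : Measurable fun z : κ → ℝ =>
      ∑ e, ℓ e * (flp χ y + b • z) e).sub ((hm.comp (by fun_prop)).const_mul m))
  rw [← H325.int_flip hχ h1]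
  refine integral_congr_ae (Filter.Eventually.of_forall fun z => ?_)
  simp only
  congr 1
  have e : flp χ y + b • (fun i => χ i * z i) = flp χ (y + b • z) := by
    rw [flp_add, flp_smul]; rfl
  rw [e, ← flp_add, hF]
  congr 1
  refine Finset.sum_congr rfl fun i _ => ?_
  simp only [flp]
  ring

lemma op_even {χ : κ → ℝ} (hχ : ∀ e, χ e ^ 2 = 1) (hF : ∀ u, F (flp χ u) = F u)
    (hm : Measurable F) {ℓ ℓ' : κ → ℝ} (hl : flp χ ℓ = ℓ') (m b c x θ : ℝ) (z : κ → ℝ) :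
    op ℓ ℓ' m b c x F (-θ) (flp χ z) = op ℓ ℓ' m b c x F θ z := by
  have hl' : flp χ ℓ' = ℓ := by rw [← hl, flp_flp hχ]
  unfold op
  have e1 : c • flp χ z = flp χ (c • z) := (flp_smul χ z c).symm
  have e2 : (-θ) • ℓ' = flp χ (θ • (-ℓ)) := by
    rw [flp_smul, ← hl]
    funext e
    simp [flp]
  have e3 : (-θ) • (-ℓ) = flp χ (θ • ℓ') := by
    rw [flp_smul, hl']
    simp
  have e4 : (-θ) • (ℓ' - ℓ) = flp χ (θ • (ℓ' - ℓ)) := by
    rw [flp_smul, sub_eq_add_neg ℓ' ℓ, flp_add, hl']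
    have : flp χ (-ℓ) = -ℓ' := by
      rw [← hl]; funext e; simp [flp]
    rw [this]
    module
  rw [e1, e2, e3, e4, IA_flp hχ hF hm, IA_flp hχ hF hm, ← flp_add, W_flp hχ hF hm, hl, hl']
  ring

/-- **The two replica inequality.** -/
theorem outer_le (h : C2 F D HF B L B2) (hc : Cv F) (hm : 0 ≤ m) (hx : 0 < x)
    {χ : κ → ℝ} (hχ : ∀ e, χ e ^ 2 = 1) (hF : ∀ u, F (flp χ u) = F u)
    {ℓ ℓ' : κ → ℝ} (hl : flp χ ℓ = ℓ') (b c : ℝ) :
    ∫ z, Real.exp (op ℓ ℓ' m b c x F 0 z) *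
      (op1 ℓ ℓ' m b c x F D 0 z ^ 2 + op2 ℓ ℓ' m b c x F D HF 0 z) ∂(gI κ) ≤ 0 := by
  have hmF : Measurable F := (h.c1.lip.lip h.c1.B0).measurable
  have hL : ∀ θ, Lip (op ℓ ℓ' m b c x F θ) := fun θ => lip_op h hx ℓ ℓ' θ
  have hi : ∀ θ, Integrable (fun z => Real.exp (op ℓ ℓ' m b c x F θ z)) (gI κ) := fun θ =>
    H863.PL.integrable_of_gr (hL θ).measurable (gr_lip (hL θ))
  refine so_le (C := Ko m x B B2 ℓ ℓ') (p := op ℓ ℓ' m b c x F) (p1 := op1 ℓ ℓ' m b c x F D)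
    (p2 := op2 ℓ ℓ' m b c x F D HF)
    (fun z θ => op_d h hm hx ℓ ℓ' z θ) (fun z θ => op_d1 h hm ℓ ℓ' z θ)
    (fun θ z => (op1_bd h hm hx ℓ ℓ' θ z).1) (fun θ z => (op1_bd h hm hx ℓ ℓ' θ z).2)
    (fun θ => (hL θ).measurable) (fun θ => meas_op1 h ℓ ℓ' θ) (fun θ => meas_op2 h ℓ ℓ' θ)
    (hi 0) fun θ => ?_
  have hcv := H863.PL.gauss (κ := κ) (E := ℝ) (op ℓ ℓ' m b c x F) (op_conc h hc hm hx ℓ ℓ')
    (fun θ => (hL θ).measurable) (fun θ => gr_lip (hL θ))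
  have hev : ∫ z, Real.exp (op ℓ ℓ' m b c x F (-θ) z) ∂(gI κ) =
      ∫ z, Real.exp (op ℓ ℓ' m b c x F θ z) ∂(gI κ) := by
    have h5 := H325.int_flip hχ (Real.measurable_exp.comp (hL (-θ)).measurable)
    simp only [Function.comp_apply] at h5
    rw [← h5]
    refine integral_congr_ae (Filter.Eventually.of_forall fun z => ?_)
    simp only
    congr 1
    exact op_even hχ hF hmF hl m b c x θ z
  have h1 := hcv.2 (mem_univ θ) (mem_univ (-θ)) (by norm_num : (0:ℝ) ≤ 1/2)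
    (by norm_num : (0:ℝ) ≤ 1/2) (by norm_num)
  simp only [smul_eq_mul] at h1
  have e0 : (1:ℝ) / 2 * θ + 1 / 2 * -θ = 0 := by ring
  rw [e0] at h1
  have h2 : Real.log (∫ z, Real.exp (op ℓ ℓ' m b c x F θ z) ∂(gI κ)) ≤
      Real.log (∫ z, Real.exp (op ℓ ℓ' m b c x F 0 z) ∂(gI κ)) := by
    have h3 : Real.log (∫ z, Real.exp (op ℓ ℓ' m b c x F (-θ) z) ∂(gI κ)) =
      Real.log (∫ z, Real.exp (op ℓ ℓ' m b c x F θ z) ∂(gI κ)) := by rw [hev]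
    have h1' : 1 / 2 * Real.log (∫ z, Real.exp (op ℓ ℓ' m b c x F θ z) ∂(gI κ)) +
      1 / 2 * Real.log (∫ z, Real.exp (op ℓ ℓ' m b c x F (-θ) z) ∂(gI κ)) ≤
      Real.log (∫ z, Real.exp (op ℓ ℓ' m b c x F 0 z) ∂(gI κ)) := h1
    linarith
  exact (Real.log_le_log_iff (integral_exp_pos (hi θ)) (integral_exp_pos (hi 0))).1 h2

end Vale.Agent.P146.H773
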