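import Vale.Agent.P146.H863.PLG

/-!
# Log-concavity of the (planted) negative moment in the weights (helper773)

`Zu u g = ∑ i, exp (a i · g + c i + u (j i))`, `Mu u = ∫ exp (a0 · g - p log (Zu u g)) dγ`, `p ≥ 0`.

* `conc`    : `u ↦ log (Mu u)` is concave (Prékopa).
* `mid`     : `Mu u * Mu (-u) ≤ Mu 0 ^ 2`.
* `tangent` : `Mu u ≤ exp (-p * ∑ l, P l * u l) * Mu 0`, `P` the planted mean of the label.
-/

open MeasureTheory ProbabilityTheory Set Filter Topology

namespace Vale.Agent.P146.H773.Pk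

variable {ι κ J : Type*} [Fintype ι] [Fintype κ]

/-- weighted partition function -/
noncomputable def Zu (a : ι → κ → ℝ) (c : ι → ℝ) (j : ι → J) (u : J → ℝ) (g : κ → ℝ) : ℝ :=
  ∑ i, Real.exp (∑ e, a i e * g e + c i + u (j i))

/-- the exponent -/
noncomputable def ex (a0 : κ → ℝ) (p : ℝ) (a : ι → κ → ℝ) (c : ι → ℝ) (j : ι → J) (u : J → ℝ) (g : κ → ℝ) : ℝ :=
  ∑ e, a0 e * g e - p * Real.log (Zu a c j u g)

/-- the (planted) negative moment -/
noncomputable def Mu (a0 : κ → ℝ) (p : ℝ) (a : ι → κ → ℝ) (c : ι → ℝ) (j : ι → J) (u : J → ℝ) : ℝ :=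
  ∫ g, Real.exp (ex a0 p a c j u g) ∂(Measure.pi fun _ : κ => gaussianReal 0 1)

variable {a0 : κ → ℝ} {p : ℝ} {a : ι → κ → ℝ} {c : ι → ℝ} {j : ι → J}

lemma Zu_pos [Nonempty ι] (u : J → ℝ) (g : κ → ℝ) : 0 < Zu a c j u g :=
  Finset.sum_pos (fun _ _ => Real.exp_pos _) Finset.univ_nonempty

/-- log-sum-exp is midpoint ... in fact fully convex: Hölder -/
lemma lse_conv [Nonempty ι] (x y : ι → ℝ) {s t : ℝ} (hs : 0 ≤ s) (ht : 0 ≤ t) (hst : s + t = 1) :
    Real.log (∑ i, Real.exp (s * x i + t * y i)) ≤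
      s * Real.log (∑ i, Real.exp (x i)) + t * Real.log (∑ i, Real.exp (y i)) := by
  rcases hs.eq_or_lt with rfl | hs0
  · have : t = 1 := by linarith
    subst this; simp
  rcases ht.eq_or_lt with rfl | ht0
  · have : s = 1 := by linarith
    subst this; simp
  have pos : ∀ f : ι → ℝ, 0 < ∑ i, Real.exp (f i) := fun f =>
    Finset.sum_pos (fun _ _ => Real.exp_pos _) Finset.univ_nonempty
  have hpq : (1 / s).HolderConjugate (1 / t) := by
    rw [Real.holderConjugate_iff]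
    refine ⟨?_, by simpa using hst⟩
    rw [lt_div_iff₀ hs0]; linarith
  have h := Real.inner_le_Lp_mul_Lq_of_nonneg (s := Finset.univ) hpq
    (f := fun i => Real.exp (s * x i)) (g := fun i => Real.exp (t * y i))
    (fun i _ => (Real.exp_pos _).le) (fun i _ => (Real.exp_pos _).le)
  have e1 : ∀ i, Real.exp (s * x i) ^ (1 / s) = Real.exp (x i) := by
    intro i
    rw [← Real.exp_mul]; congr 1; field_simp
  have e2 : ∀ i, Real.exp (t * y i) ^ (1 / t) = Real.exp (y i) := by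
    intro i
    rw [← Real.exp_mul]; congr 1; field_simp
  simp only [e1, e2] at h
  simp only [one_div, inv_inv] at h
  have h' : ∑ i, Real.exp (s * x i + t * y i) ≤
      (∑ i, Real.exp (x i)) ^ s * (∑ i, Real.exp (y i)) ^ t := by
    refine le_trans (le_of_eq ?_) h
    exact Finset.sum_congr rfl fun i _ => Real.exp_add _ _
  have h2 := Real.log_le_log (pos _) h'
  rw [Real.log_mul (Real.rpow_pos_of_pos (pos x) _).ne' (Real.rpow_pos_of_pos (pos y) _).ne',
    Real.log_rpow (pos x), Real.log_rpow (pos y)] at h2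
  exact h2

lemma ex_conc [Nonempty ι] (hp : 0 ≤ p) :
    ConcaveOn ℝ univ fun q : (J → ℝ) × (κ → ℝ) => ex a0 p a c j q.1 q.2 := by
  refine ⟨convex_univ, fun q _ r _ s t hs ht hst => ?_⟩
  have h := lse_conv (fun i => ∑ e, a i e * q.2 e + c i + q.1 (j i))
    (fun i => ∑ e, a i e * r.2 e + c i + r.1 (j i)) hs ht hst
  have e1 : ∀ i, s * (∑ e, a i e * q.2 e + c i + q.1 (j i)) +
      t * (∑ e, a i e * r.2 e + c i + r.1 (j i)) =
      ∑ e, a i e * (s • q + t • r).2 e + c i + (s • q + t • r).1 (j i) := by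
    intro i
    have : ∑ e, a i e * (s • q + t • r).2 e =
        s * ∑ e, a i e * q.2 e + t * ∑ e, a i e * r.2 e := by
      rw [Finset.mul_sum, Finset.mul_sum, ← Finset.sum_add_distrib]
      refine Finset.sum_congr rfl fun e _ => ?_
      simp only [Prod.smul_snd, Prod.snd_add, Pi.add_apply, Pi.smul_apply, smul_eq_mul]
      ring
    rw [this]
    simp only [Prod.smul_fst, Prod.fst_add, Pi.add_apply, Pi.smul_apply, smul_eq_mul]
    have hc : c i = s * c i + t * c i := by rw [← add_mul, hst, one_mul]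
    linear_combination (-1 : ℝ) * hc
  simp only [e1] at h
  have e2 : ∑ e, a0 e * (s • q + t • r).2 e =
      s * ∑ e, a0 e * q.2 e + t * ∑ e, a0 e * r.2 e := by
    rw [Finset.mul_sum, Finset.mul_sum, ← Finset.sum_add_distrib]
    refine Finset.sum_congr rfl fun e _ => ?_
    simp only [Prod.smul_snd, Prod.snd_add, Pi.add_apply, Pi.smul_apply, smul_eq_mul]
    ring
  have h1 := mul_le_mul_of_nonneg_left h hp
  simp only [ex, smul_eq_mul]
  rw [e2]
  unfold Zu
  nlinarith [h1]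

lemma meas_ex (u : J → ℝ) : Measurable (ex a0 p a c j u) := by
  unfold ex Zu
  fun_prop

/-- the logarithm of the partition function grows at most linearly from below -/
lemma log_Zu_ge [Nonempty ι] (u : J → ℝ) (i : ι) (g : κ → ℝ) :
    ∑ e, a i e * g e + c i + u (j i) ≤ Real.log (Zu a c j u g) := by
  rw [Real.le_log_iff_exp_le (Zu_pos u g)]
  exact Finset.single_le_sum (f := fun i => Real.exp (∑ e, a i e * g e + c i + u (j i)))
    (fun i _ => (Real.exp_pos _).le) (Finset.mem_univ i)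

lemma abs_lin (b : κ → ℝ) (g : κ → ℝ) : |∑ e, b e * g e| ≤ (∑ e, |b e|) * ∑ e, |g e| := by
  refine (Finset.abs_sum_le_sum_abs _ _).trans ?_
  rw [Finset.sum_mul]
  refine Finset.sum_le_sum fun e _ => ?_
  rw [abs_mul]
  exact mul_le_mul_of_nonneg_left (Finset.single_le_sum (f := fun e => |g e|)
    (fun _ _ => abs_nonneg _) (Finset.mem_univ e)) (abs_nonneg _)

lemma gr_ex [Nonempty ι] (hp : 0 ≤ p) (u : J → ℝ) : H863.PL.Gr (ex a0 p a c j u) := by
  obtain ⟨i⟩ := ‹Nonempty ι›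
  refine ⟨-(p * (c i + u (j i))), ∑ e, |a0 e| + p * ∑ e, |a i e|, fun g => ?_⟩
  have : Nonempty ι := ⟨i⟩
  have h1 := mul_le_mul_of_nonneg_left (log_Zu_ge (a := a) (c := c) (j := j) u i g) hp
  have h2 := (abs_le.1 (abs_lin a0 g)).2
  have h3 := mul_le_mul_of_nonneg_left (abs_le.1 (abs_lin (a i) g)).1 hp
  unfold ex
  nlinarith [h1, h2, h3]

lemma int_ex [Nonempty ι] (hp : 0 ≤ p) (u : J → ℝ) :
    Integrable (fun g => Real.exp (ex a0 p a c j u g))
      (Measure.pi fun _ : κ => gaussianReal 0 1) :=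
  H863.PL.integrable_of_gr (meas_ex u) (gr_ex hp u)

lemma pos [Nonempty ι] (hp : 0 ≤ p) (u : J → ℝ) : 0 < Mu a0 p a c j u :=
  integral_exp_pos (int_ex hp u)

/-- **Prékopa**: the negative moment is log-concave in the weights -/
theorem conc [Nonempty ι] (hp : 0 ≤ p) :
    ConcaveOn ℝ univ fun u : J → ℝ => Real.log (Mu a0 p a c j u) :=
  H863.PL.gauss (κ := κ) (E := J → ℝ) (fun u g => ex a0 p a c j u g) (ex_conc hp)
    meas_ex (gr_ex hp)

/-- midpoint form -/
theorem mid [Nonempty ι] (hp : 0 ≤ p) (u : J → ℝ) :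
    Mu a0 p a c j u * Mu a0 p a c j (-u) ≤ Mu a0 p a c j 0 ^ 2 := by
  have h := (conc (a0 := a0) (a := a) (c := c) (j := j) hp).2 (mem_univ u) (mem_univ (-u))
    (show (0 : ℝ) ≤ 1 / 2 by norm_num) (show (0 : ℝ) ≤ 1 / 2 by norm_num) (by norm_num)
  simp only [smul_neg, add_neg_cancel, smul_eq_mul] at h
  have h0 := pos (a0 := a0) (a := a) (c := c) (j := j) hp u
  have h1 := pos (a0 := a0) (a := a) (c := c) (j := j) hp (-u)
  have h2 := pos (a0 := a0) (a := a) (c := c) (j := j) hp 0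
  rw [← Real.log_le_log_iff (mul_pos h0 h1) (by positivity), Real.log_mul h0.ne' h1.ne',
    Real.log_pow]
  push_cast
  linarith

/-- midpoint form at two points -/
theorem mid_two [Nonempty ι] (hp : 0 ≤ p) (u v : J → ℝ) :
    Mu a0 p a c j u * Mu a0 p a c j v ≤ Mu a0 p a c j ((1 / 2 : ℝ) • (u + v)) ^ 2 := by
  have h := (conc (a0 := a0) (a := a) (c := c) (j := j) hp).2 (mem_univ u) (mem_univ v)
    (show (0 : ℝ) ≤ 1 / 2 by norm_num) (show (0 : ℝ) ≤ 1 / 2 by norm_num) (by norm_num)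
  have e : (1 / 2 : ℝ) • u + (1 / 2 : ℝ) • v = (1 / 2 : ℝ) • (u + v) := (smul_add _ _ _).symm
  simp only [e, smul_eq_mul] at h
  have h0 := pos (a0 := a0) (a := a) (c := c) (j := j) hp u
  have h1 := pos (a0 := a0) (a := a) (c := c) (j := j) hp v
  have h2 := pos (a0 := a0) (a := a) (c := c) (j := j) hp ((1 / 2 : ℝ) • (u + v))
  rw [← Real.log_le_log_iff (mul_pos h0 h1) (by positivity), Real.log_mul h0.ne' h1.ne',
    Real.log_pow]
  push_cast
  linarith

lemma Zu_mono {u v : J → ℝ} (h : u ≤ v) (g : κ → ℝ) : Zu a c j u g ≤ Zu a c j v g :=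
  Finset.sum_le_sum fun i _ => Real.exp_le_exp.2 (by linarith [h (j i)])

/-- the moment decreases in the weights -/
theorem anti [Nonempty ι] (hp : 0 ≤ p) {u v : J → ℝ} (h : u ≤ v) :
    Mu a0 p a c j v ≤ Mu a0 p a c j u := by
  refine integral_mono (int_ex hp v) (int_ex hp u) fun g => ?_
  refine Real.exp_le_exp.2 ?_
  unfold ex
  have h1 := mul_le_mul_of_nonneg_left (Real.log_le_log (Zu_pos (a := a) (c := c) (j := j) u g)
    (Zu_mono h g)) hp
  linarith

lemma Zu_shift (u : J → ℝ) (t : ℝ) (g : κ → ℝ) :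
    Zu a c j (fun l => u l + t) g = Real.exp t * Zu a c j u g := by
  unfold Zu
  rw [Finset.mul_sum]
  refine Finset.sum_congr rfl fun i _ => ?_
  rw [← Real.exp_add]; congr 1; ring

/-- constant shift of the weights -/
theorem shift [Nonempty ι] (u : J → ℝ) (t : ℝ) :
    Mu a0 p a c j (fun l => u l + t) = Real.exp (-(p * t)) * Mu a0 p a c j u := by
  unfold Mu
  rw [← integral_const_mul]
  congr 1
  funext g
  rw [← Real.exp_add]
  congr 1
  unfold ex
  rw [Zu_shift, Real.log_mul (Real.exp_pos _).ne' (Zu_pos u g).ne', Real.log_exp]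
  ring

/-! ### the tangent form -/

/-- Gibbs weight of the replica `i` (weights `0`) -/
noncomputable def Gb (a : ι → κ → ℝ) (c : ι → ℝ) (i : ι) (g : κ → ℝ) : ℝ :=
  Real.exp (∑ e, a i e * g e + c i) / ∑ k, Real.exp (∑ e, a k e * g e + c k)

lemma Zu_zero (g : κ → ℝ) : Zu a c j 0 g = ∑ k, Real.exp (∑ e, a k e * g e + c k) := by
  unfold Zu
  simp

lemma Gb_nonneg (i : ι) (g : κ → ℝ) : 0 ≤ Gb a c i g :=
  div_nonneg (Real.exp_pos _).le (Finset.sum_nonneg fun _ _ => (Real.exp_pos _).le)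

lemma Gb_sum [Nonempty ι] (g : κ → ℝ) : ∑ i, Gb a c i g = 1 := by
  unfold Gb
  rw [← Finset.sum_div, div_self]
  exact (Finset.sum_pos (fun _ _ => Real.exp_pos _) Finset.univ_nonempty).ne'

lemma Gb_le_one [Nonempty ι] (i : ι) (g : κ → ℝ) : Gb a c i g ≤ 1 := by
  rw [← Gb_sum (a := a) (c := c) g]
  exact Finset.single_le_sum (f := fun i => Gb a c i g) (fun i _ => Gb_nonneg i g)
    (Finset.mem_univ i)

lemma meas_Gb (i : ι) : Measurable (Gb a c i) := by
  unfold Gb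
  fun_prop

/-- the partition function at weights `u` is the Gibbs mean at weights `0` -/
lemma Zu_eq [Nonempty ι] (u : J → ℝ) (g : κ → ℝ) :
    Zu a c j u g = Zu a c j 0 g * ∑ i, Gb a c i g * Real.exp (u (j i)) := by
  have h : (∑ k, Real.exp (∑ e, a k e * g e + c k)) ≠ 0 :=
    (Finset.sum_pos (fun _ _ => Real.exp_pos _) Finset.univ_nonempty).ne'
  rw [Zu_zero, Finset.mul_sum]
  unfold Zu Gb
  refine Finset.sum_congr rfl fun i _ => ?_
  rw [Real.exp_add]
  field_simp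

/-- planted mean of the Gibbs weight of the replica `i` -/
noncomputable def Pr (a0 : κ → ℝ) (p : ℝ) (a : ι → κ → ℝ) (c : ι → ℝ) (j : ι → J) (i : ι) : ℝ :=
  (∫ g, Real.exp (ex a0 p a c j 0 g) * Gb a c i g ∂(Measure.pi fun _ : κ => gaussianReal 0 1)) /
    Mu a0 p a c j 0

lemma int_Gb [Nonempty ι] (hp : 0 ≤ p) (i : ι) :
    Integrable (fun g => Real.exp (ex a0 p a c j 0 g) * Gb a c i g)
      (Measure.pi fun _ : κ => gaussianReal 0 1) := by
  refine (int_ex (a0 := a0) (a := a) (c := c) (j := j) hp 0).mono'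
    (((meas_ex 0).exp.mul (meas_Gb i)).aestronglyMeasurable)
    (Filter.Eventually.of_forall fun g => ?_)
  rw [Real.norm_eq_abs, abs_of_nonneg (mul_nonneg (Real.exp_pos _).le (Gb_nonneg i g))]
  exact mul_le_of_le_one_right (Real.exp_pos _).le (Gb_le_one i g)

lemma Pr_nonneg [Nonempty ι] (hp : 0 ≤ p) (i : ι) : 0 ≤ Pr a0 p a c j i :=
  div_nonneg (integral_nonneg fun g => mul_nonneg (Real.exp_pos _).le (Gb_nonneg i g))
    (pos hp 0).le

lemma Pr_sum [Nonempty ι] (hp : 0 ≤ p) : ∑ i, Pr a0 p a c j i = 1 := by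
  unfold Pr
  rw [← Finset.sum_div, ← integral_finsetSum _ fun i _ => int_Gb hp i]
  simp only [← Finset.mul_sum, Gb_sum, mul_one]
  exact div_self (pos hp 0).ne'

/-- second order upper bound of `⟨e^{-εψ}⟩` -/
lemma gibbs_exp_le [Nonempty ι] (ψ : J → ℝ) {B ε : ℝ} (hB : ∀ i, |ψ (j i)| ≤ B) (hε : 0 ≤ ε)
    (hεB : ε * B ≤ 1) (g : κ → ℝ) :
    ∑ i, Gb a c i g * Real.exp (-(ε * ψ (j i))) ≤
      Real.exp (-(ε * ∑ i, Gb a c i g * ψ (j i)) + (ε * B) ^ 2) := by
  have h1 : ∀ i, Gb a c i g * Real.exp (-(ε * ψ (j i))) ≤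
      Gb a c i g * (1 - ε * ψ (j i) + (ε * B) ^ 2) := by
    intro i
    refine mul_le_mul_of_nonneg_left ?_ (Gb_nonneg i g)
    have h2 : |-(ε * ψ (j i))| ≤ ε * B := by
      rw [abs_neg, abs_mul, abs_of_nonneg hε]
      exact mul_le_mul_of_nonneg_left (hB i) hε
    have h3 := Real.abs_exp_sub_one_sub_id_le (x := -(ε * ψ (j i))) (h2.trans hεB)
    have h4 := (abs_le.1 h3).2
    have h5 : (-(ε * ψ (j i))) ^ 2 ≤ (ε * B) ^ 2 := by
      rw [← sq_abs]
      exact pow_le_pow_left₀ (abs_nonneg _) h2 2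
    linarith
  refine (Finset.sum_le_sum fun i _ => h1 i).trans ?_
  have h6 : ∑ i, Gb a c i g * (1 - ε * ψ (j i) + (ε * B) ^ 2) =
      1 - ε * (∑ i, Gb a c i g * ψ (j i)) + (ε * B) ^ 2 := by
    have h7 : ∑ i, Gb a c i g * (1 - ε * ψ (j i) + (ε * B) ^ 2) =
        (∑ i, Gb a c i g) * (1 + (ε * B) ^ 2) - ε * ∑ i, Gb a c i g * ψ (j i) := by
      rw [Finset.sum_mul, Finset.mul_sum, ← Finset.sum_sub_distrib]
      exact Finset.sum_congr rfl fun i _ => by ring
    rw [h7, Gb_sum]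
    ring
  rw [h6]
  have h8 := Real.add_one_le_exp (-(ε * ∑ i, Gb a c i g * ψ (j i)) + (ε * B) ^ 2)
  linarith

/-- lower bound of the moment at small negative weights -/
lemma log_ge [Nonempty ι] (hp : 0 ≤ p) (ψ : J → ℝ) {B ε : ℝ} (hB : ∀ i, |ψ (j i)| ≤ B)
    (hε : 0 ≤ ε) (hεB : ε * B ≤ 1) :
    Real.log (Mu a0 p a c j 0) + p * ε * (∑ i, Pr a0 p a c j i * ψ (j i)) - p * (ε * B) ^ 2 ≤
      Real.log (Mu a0 p a c j (-(ε • ψ))) := by
  set y0 : ℝ := p * ε * ∑ i, Pr a0 p a c j i * ψ (j i) with hy0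
  have hM := pos (a0 := a0) (a := a) (c := c) (j := j) hp 0
  rw [Real.le_log_iff_exp_le (pos hp _)]
  have e1 : Real.exp (Real.log (Mu a0 p a c j 0) + y0 - p * (ε * B) ^ 2) =
      ∫ g, (Real.exp (y0 - p * (ε * B) ^ 2) * (1 - y0)) * Real.exp (ex a0 p a c j 0 g) +
        (Real.exp (y0 - p * (ε * B) ^ 2) * (p * ε)) *
          ∑ i, Real.exp (ex a0 p a c j 0 g) * Gb a c i g * ψ (j i)
        ∂(Measure.pi fun _ : κ => gaussianReal 0 1) := by
    rw [integral_add ((int_ex hp 0).const_mul _)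
      ((integrable_finsetSum _ fun i _ => (int_Gb hp i).mul_const _).const_mul _),
      integral_const_mul, integral_const_mul,
      integral_finsetSum _ fun i _ => (int_Gb hp i).mul_const _]
    simp only [integral_mul_const]
    have e2 : ∀ i, (∫ g, Real.exp (ex a0 p a c j 0 g) * Gb a c i g
        ∂(Measure.pi fun _ : κ => gaussianReal 0 1)) = Pr a0 p a c j i * Mu a0 p a c j 0 := by
      intro i
      unfold Pr
      rw [div_mul_cancel₀ _ hM.ne']
    simp only [e2]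
    have e3 : ∑ i, Pr a0 p a c j i * Mu a0 p a c j 0 * ψ (j i) =
        Mu a0 p a c j 0 * ∑ i, Pr a0 p a c j i * ψ (j i) := by
      rw [Finset.mul_sum]
      exact Finset.sum_congr rfl fun i _ => by ring
    rw [e3]
    have e4 : (∫ g, Real.exp (ex a0 p a c j 0 g)
        ∂(Measure.pi fun _ : κ => gaussianReal 0 1)) = Mu a0 p a c j 0 := rfl
    rw [e4, add_sub_assoc, Real.exp_add, Real.exp_log hM]
    rw [hy0]
    ring
  rw [e1]
  refine integral_mono (((int_ex hp 0).const_mul _).add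
    ((integrable_finsetSum _ fun i _ => (int_Gb hp i).mul_const _).const_mul _))
    (int_ex hp _) fun g => ?_
  simp only
  have h1 := gibbs_exp_le (a := a) (c := c) (j := j) ψ hB hε hεB g
  have h2 : Real.log (Zu a c j (-(ε • ψ)) g) ≤ Real.log (Zu a c j 0 g) +
      (-(ε * ∑ i, Gb a c i g * ψ (j i)) + (ε * B) ^ 2) := by
    rw [Zu_eq]
    simp only [Pi.neg_apply, Pi.smul_apply, smul_eq_mul]
    have hpos : 0 < ∑ i, Gb a c i g * Real.exp (-(ε * ψ (j i))) := by
      have h3 : 0 < Zu a c j (-(ε • ψ)) g := Zu_pos _ g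
      rw [Zu_eq] at h3
      simp only [Pi.neg_apply, Pi.smul_apply, smul_eq_mul] at h3
      exact (pos_iff_pos_of_mul_pos h3).1 (Zu_pos 0 g)
    rw [Real.log_mul (Zu_pos 0 g).ne' hpos.ne']
    have h4 := Real.log_le_log hpos h1
    rw [Real.log_exp] at h4
    linarith
  have h5 := mul_le_mul_of_nonneg_left h2 hp
  set m : ℝ := ∑ i, Gb a c i g * ψ (j i) with hm
  have h6 : ex a0 p a c j 0 g + p * ε * m - p * (ε * B) ^ 2 ≤ ex a0 p a c j (-(ε • ψ)) g := by
    unfold ex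
    nlinarith [h5]
  refine le_trans ?_ (Real.exp_le_exp.2 h6)
  have e5 : ∑ i, Real.exp (ex a0 p a c j 0 g) * Gb a c i g * ψ (j i) =
      Real.exp (ex a0 p a c j 0 g) * m := by
    rw [hm, Finset.mul_sum]
    exact Finset.sum_congr rfl fun i _ => by ring
  rw [e5]
  have h7 : Real.exp (ex a0 p a c j 0 g + p * ε * m - p * (ε * B) ^ 2) =
      Real.exp (y0 - p * (ε * B) ^ 2) * Real.exp (ex a0 p a c j 0 g) *
        Real.exp (p * ε * m - y0) := by
    rw [← Real.exp_add, ← Real.exp_add]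
    congr 1
    ring
  rw [h7]
  have h8 := mul_le_mul_of_nonneg_left (Real.add_one_le_exp (p * ε * m - y0))
    (mul_pos (Real.exp_pos (y0 - p * (ε * B) ^ 2)) (Real.exp_pos (ex a0 p a c j 0 g))).le
  refine le_trans (le_of_eq ?_) h8
  ring

/-- **tangent form**: `Mu ψ ≤ exp (-p * (planted Gibbs mean of ψ)) * Mu 0` -/
theorem tangent_log [Nonempty ι] (hp : 0 ≤ p) (ψ : J → ℝ) :
    Real.log (Mu a0 p a c j ψ) ≤
      Real.log (Mu a0 p a c j 0) - p * ∑ i, Pr a0 p a c j i * ψ (j i) := by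
  set B : ℝ := ∑ i, |ψ (j i)| with hBd
  have hB : ∀ i, |ψ (j i)| ≤ B := fun i =>
    Finset.single_le_sum (f := fun i => |ψ (j i)|) (fun _ _ => abs_nonneg _) (Finset.mem_univ i)
  have hB0 : 0 ≤ B := Finset.sum_nonneg fun _ _ => abs_nonneg _
  refine le_of_forall_pos_le_add fun δ hδ => ?_
  set ε : ℝ := min (1 / (B + 1)) (δ / (p * B ^ 2 + 1)) with hεd
  have hε : 0 < ε := lt_min (by positivity) (by positivity)
  have hεB : ε * B ≤ 1 := by
    have h1 : ε * (B + 1) ≤ 1 := by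
      have := min_le_left (1 / (B + 1)) (δ / (p * B ^ 2 + 1))
      rwa [← hεd, le_div_iff₀ (by positivity)] at this
    nlinarith
  have hεδ : ε * (p * B ^ 2) ≤ δ := by
    have h1 : ε * (p * B ^ 2 + 1) ≤ δ := by
      have := min_le_right (1 / (B + 1)) (δ / (p * B ^ 2 + 1))
      rwa [← hεd, le_div_iff₀ (by positivity)] at this
    nlinarith
  have h1 := log_ge (a0 := a0) (a := a) (c := c) (j := j) hp ψ hB hε.le hεB
  have h2 := (conc (a0 := a0) (a := a) (c := c) (j := j) hp).2 (mem_univ (-(ε • ψ)))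
    (mem_univ ψ) (show (0 : ℝ) ≤ 1 / (1 + ε) by positivity)
    (show (0 : ℝ) ≤ ε / (1 + ε) by positivity) (by field_simp)
  have h3 : (1 / (1 + ε)) • (-(ε • ψ)) + (ε / (1 + ε)) • ψ = 0 := by
    rw [smul_neg, smul_smul, one_div_mul_eq_div, neg_add_cancel]
  rw [h3] at h2
  simp only [smul_eq_mul] at h2
  have h4 : Real.log (Mu a0 p a c j (-(ε • ψ))) + ε * Real.log (Mu a0 p a c j ψ) ≤
      (1 + ε) * Real.log (Mu a0 p a c j 0) := by
    have h5 : 1 / (1 + ε) * Real.log (Mu a0 p a c j (-(ε • ψ))) +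
        ε / (1 + ε) * Real.log (Mu a0 p a c j ψ) =
        (Real.log (Mu a0 p a c j (-(ε • ψ))) + ε * Real.log (Mu a0 p a c j ψ)) / (1 + ε) := by
      field_simp
    rw [h5, div_le_iff₀ (by positivity)] at h2
    linarith
  have h6 : ε * Real.log (Mu a0 p a c j ψ) ≤ ε * (Real.log (Mu a0 p a c j 0) -
      p * ∑ i, Pr a0 p a c j i * ψ (j i) + ε * (p * B ^ 2)) := by
    nlinarith [h1, h4]
  have h7 := le_of_mul_le_mul_left h6 hε
  linarith

theorem tangent [Nonempty ι] (hp : 0 ≤ p) (ψ : J → ℝ) :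
    Mu a0 p a c j ψ ≤
      Real.exp (-(p * ∑ i, Pr a0 p a c j i * ψ (j i))) * Mu a0 p a c j 0 := by
  have h := tangent_log (a0 := a0) (a := a) (c := c) (j := j) hp ψ
  rw [Real.log_le_iff_le_exp (pos hp _), sub_eq_neg_add, Real.exp_add,
    Real.exp_log (pos hp 0)] at h
  exact h

/-- planted mass of the label `l` -/
noncomputable def Pl [DecidableEq J] (a0 : κ → ℝ) (p : ℝ) (a : ι → κ → ℝ) (c : ι → ℝ) (j : ι → J)
    (l : J) : ℝ := ∑ i ∈ Finset.univ.filter (fun i => j i = l), Pr a0 p a c j i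

lemma Pl_nonneg [DecidableEq J] [Nonempty ι] (hp : 0 ≤ p) (l : J) : 0 ≤ Pl a0 p a c j l :=
  Finset.sum_nonneg fun i _ => Pr_nonneg hp i

lemma Pl_sum_mul [DecidableEq J] [Fintype J] (ψ : J → ℝ) :
    ∑ l, Pl a0 p a c j l * ψ l = ∑ i, Pr a0 p a c j i * ψ (j i) := by
  unfold Pl
  rw [← Finset.sum_fiberwise (s := Finset.univ) (g := j)]
  refine Finset.sum_congr rfl fun l _ => ?_
  rw [Finset.sum_mul]
  refine Finset.sum_congr rfl fun i hi => ?_
  rw [(Finset.mem_filter.1 hi).2]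

lemma Pl_sum [DecidableEq J] [Fintype J] [Nonempty ι] (hp : 0 ≤ p) :
    ∑ l, Pl a0 p a c j l = 1 := by
  have h := Pl_sum_mul (a0 := a0) (p := p) (a := a) (c := c) (j := j) (fun _ => (1 : ℝ))
  simp only [mul_one] at h
  rw [h, Pr_sum hp]

/-- tangent form with labels -/
theorem tangent_label [DecidableEq J] [Fintype J] [Nonempty ι] (hp : 0 ≤ p) (ψ : J → ℝ) :
    Mu a0 p a c j ψ ≤ Real.exp (-(p * ∑ l, Pl a0 p a c j l * ψ l)) * Mu a0 p a c j 0 := by
  rw [Pl_sum_mul]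
  exact tangent hp ψ

end Vale.Agent.P146.H773.Pk
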