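import Vale.Agent.P146.H773.Pk
import Vale.Agent.P146.H501.Interp

/-!
# `Pk` in the letters `zz`, `zp`, `gpi` of the interpolation files (helper773)
-/

open MeasureTheory ProbabilityTheory Set

namespace Vale.Agent.P146.H773.Pk

open Vale.Agent.P146 Vale.Agent.P146.H501

variable {ι X : Type*} [Fintype ι] [Fintype X]

lemma Mu_eq_zp (b : ι → ℝ) (p : ℝ) (a : X → ι → ℝ) (ψ : X → ℝ) :
    Mu b p a (fun _ => 0) id ψ = ∫ g, Real.exp (∑ i, b i * g i) * zp (-p) a ψ g ∂(gpi ι) := by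
  unfold Mu gpi
  congr 1
  funext g
  unfold ex zp Zu
  rw [← Real.exp_add]
  congr 1
  have h : (∑ s, Real.exp (∑ i, a s i * g i + 0 + ψ (id s))) = zz a ψ g := by
    unfold zz wt
    refine Finset.sum_congr rfl fun s _ => ?_
    simp
  rw [h]
  ring

/-- log-concavity of `ψ ↦ ∫ exp(b·g) zz^{-p}` -/
theorem np_conc [Nonempty X] {p : ℝ} (hp : 0 ≤ p) (b : ι → ℝ) (a : X → ι → ℝ) :
    ConcaveOn ℝ univ fun ψ : X → ℝ =>
      Real.log (∫ g, Real.exp (∑ i, b i * g i) * zp (-p) a ψ g ∂(gpi ι)) := by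
  simp only [← Mu_eq_zp]
  exact conc hp

/-- tangent inequality with a probability vector `P` (the planted Gibbs mean) -/
theorem np_le_gen [Nonempty X] {p : ℝ} (hp : 0 ≤ p) (b : ι → ℝ) (a : X → ι → ℝ) :
    ∃ P : X → ℝ, (∀ s, 0 ≤ P s) ∧ ∑ s, P s = 1 ∧ ∀ ψ : X → ℝ,
      ∫ g, Real.exp (∑ i, b i * g i) * zp (-p) a ψ g ∂(gpi ι) ≤
        Real.exp (-p * ∑ s, P s * ψ s) *
          ∫ g, Real.exp (∑ i, b i * g i) * zp (-p) a (fun _ => 0) g ∂(gpi ι) := by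
  refine ⟨Pr b p a (fun _ => 0) id, Pr_nonneg hp, Pr_sum hp, fun ψ => ?_⟩
  rw [← Mu_eq_zp, ← Mu_eq_zp, neg_mul]
  exact tangent hp ψ

/-- 291's literal of K3 -/
theorem np_le [Nonempty X] {p : ℝ} (hp : 0 ≤ p) (a : X → ι → ℝ) (s0 : X) :
    ∃ P : X → ℝ, (∀ s, 0 ≤ P s) ∧ ∑ s, P s = 1 ∧ ∀ ψ : X → ℝ,
      ∫ g, Real.exp (∑ i, a s0 i * g i) * zp (-p) a ψ g ∂(gpi ι) ≤
        Real.exp (-p * ∑ s, P s * ψ s) *
          ∫ g, Real.exp (∑ i, a s0 i * g i) * zp (-p) a (fun _ => 0) g ∂(gpi ι) :=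
  np_le_gen hp (a s0) a

/-- midpoint inequality -/
theorem np_mid [Nonempty X] {p : ℝ} (hp : 0 ≤ p) (b : ι → ℝ) (a : X → ι → ℝ) (ψ : X → ℝ) :
    (∫ g, Real.exp (∑ i, b i * g i) * zp (-p) a ψ g ∂(gpi ι)) *
      (∫ g, Real.exp (∑ i, b i * g i) * zp (-p) a (-ψ) g ∂(gpi ι)) ≤
      (∫ g, Real.exp (∑ i, b i * g i) * zp (-p) a 0 g ∂(gpi ι)) ^ 2 := by
  simp only [← Mu_eq_zp]
  exact mid hp ψ

end Vale.Agent.P146.H773.Pk
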