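import Mathlib

/-!
A second order condition: if `θ ↦ ∫ exp (p θ ω)` is maximal at `0`, then
`∫ exp (p 0) (p'(0)² + p''(0)) ≤ 0`.
-/

open MeasureTheory ProbabilityTheory Filter Topology Set

namespace Vale.Agent.P146.H773

/-- second order condition at a maximum -/
lemma second_le {Z Z1 : ℝ → ℝ} {Z2 : ℝ} (h1 : ∀ θ, HasDerivAt Z (Z1 θ) θ)
    (h2 : HasDerivAt Z1 Z2 0) (hmax : ∀ θ, Z θ ≤ Z 0) : Z2 ≤ 0 := by
  by_contra hcon
  push Not at hcon
  have hloc : IsLocalMax Z 0 := Filter.Eventually.of_forall hmax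
  have hz : Z1 0 = 0 := hloc.hasDerivAt_eq_zero (h1 0)
  have hs := hasDerivAt_iff_tendsto_slope.1 h2
  have he : ∀ᶠ θ in 𝓝[≠] (0 : ℝ), 0 < slope Z1 0 θ := hs.eventually (lt_mem_nhds hcon)
  rw [eventually_nhdsWithin_iff, Metric.eventually_nhds_iff] at he
  obtain ⟨ε, hε, he⟩ := he
  have hpos : ∀ θ ∈ interior (Icc (0 : ℝ) (ε / 2)), 0 < deriv Z θ := by
    intro θ hθ
    rw [interior_Icc] at hθ
    have h3 := he (y := θ) (by
      rw [Real.dist_eq, sub_zero, abs_of_pos hθ.1]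
      linarith [hθ.2]) (by simpa using hθ.1.ne')
    rw [slope_def_field, hz, sub_zero, sub_zero] at h3
    rw [(h1 θ).deriv]
    exact (div_pos_iff_of_pos_right hθ.1).1 h3
  have hm : StrictMonoOn Z (Icc (0 : ℝ) (ε / 2)) :=
    strictMonoOn_of_deriv_pos (convex_Icc _ _)
      (fun θ _ => (h1 θ).continuousAt.continuousWithinAt) hpos
  have h4 := hm (left_mem_Icc.2 (by linarith)) (right_mem_Icc.2 (by linarith))
    (by linarith : (0 : ℝ) < ε / 2)
  exact absurd (hmax (ε / 2)) (not_le.2 h4)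

set_option linter.unusedSectionVars false

variable {Ω : Type*} [MeasurableSpace Ω] {μ : Measure Ω}

/-- bound of the exponential along the parameter -/
lemma exp_le_of_lip {p p1 : ℝ → Ω → ℝ} {C : ℝ}
    (hp : ∀ ω θ, HasDerivAt (fun θ => p θ ω) (p1 θ ω) θ) (b1 : ∀ θ ω, |p1 θ ω| ≤ C)
    (θ θ' : ℝ) (ω : Ω) : Real.exp (p θ' ω) ≤ Real.exp (C * |θ' - θ|) * Real.exp (p θ ω) := by
  rw [← Real.exp_add]
  refine Real.exp_le_exp.2 ?_
  have h := Convex.norm_image_sub_le_of_norm_hasDerivWithin_le (s := (univ : Set ℝ))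
    (f := fun θ => p θ ω) (f' := fun θ => p1 θ ω) (C := C) (x := θ) (y := θ')
    (fun t _ => (hp ω t).hasDerivWithinAt) (fun t _ => by
      rw [Real.norm_eq_abs]; exact b1 t ω) convex_univ (mem_univ _) (mem_univ _)
  rw [Real.norm_eq_abs, Real.norm_eq_abs] at h
  linarith [(abs_le.1 h).2]

lemma int_exp_of_lip {p p1 : ℝ → Ω → ℝ} {C : ℝ}
    (hp : ∀ ω θ, HasDerivAt (fun θ => p θ ω) (p1 θ ω) θ) (b1 : ∀ θ ω, |p1 θ ω| ≤ C)
    (m0 : ∀ θ, Measurable (p θ)) (i0 : Integrable (fun ω => Real.exp (p 0 ω)) μ) (θ : ℝ) :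
    Integrable (fun ω => Real.exp (p θ ω)) μ := by
  refine (i0.const_mul (Real.exp (C * |θ - 0|))).mono'
    (Real.continuous_exp.measurable.comp (m0 θ)).aestronglyMeasurable
    (Filter.Eventually.of_forall fun ω => ?_)
  rw [Real.norm_eq_abs, abs_of_pos (Real.exp_pos _)]
  exact exp_le_of_lip hp b1 0 θ ω

/-- Differentiation under the integral sign of `∫ exp (p θ) q θ`. -/
theorem di {p p1 q q1 : ℝ → Ω → ℝ} {C K : ℝ}
    (hp : ∀ ω θ, HasDerivAt (fun θ => p θ ω) (p1 θ ω) θ) (b1 : ∀ θ ω, |p1 θ ω| ≤ C)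
    (hq : ∀ ω θ, HasDerivAt (fun θ => q θ ω) (q1 θ ω) θ) (c0 : ∀ θ ω, |q θ ω| ≤ K)
    (c1 : ∀ θ ω, |q1 θ ω| ≤ K) (m0 : ∀ θ, Measurable (p θ)) (m1 : ∀ θ, Measurable (p1 θ))
    (n0 : ∀ θ, Measurable (q θ)) (n1 : ∀ θ, Measurable (q1 θ))
    (i0 : Integrable (fun ω => Real.exp (p 0 ω)) μ) (θ : ℝ) :
    HasDerivAt (fun θ => ∫ ω, Real.exp (p θ ω) * q θ ω ∂μ)
      (∫ ω, Real.exp (p θ ω) * (p1 θ ω * q θ ω + q1 θ ω) ∂μ) θ := by
  rcases isEmpty_or_nonempty Ω with hΩ | ⟨⟨ω0⟩⟩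
  · have : μ = 0 := Measure.eq_zero_of_isEmpty μ
    subst this
    simpa using hasDerivAt_const θ (0 : ℝ)
  have hC : 0 ≤ C := (abs_nonneg _).trans (b1 0 ω0)
  have hK : 0 ≤ K := (abs_nonneg _).trans (c0 0 ω0)
  have hi := int_exp_of_lip hp b1 m0 i0 θ
  have me : ∀ θ, Measurable fun ω => Real.exp (p θ ω) := fun θ =>
    Real.continuous_exp.measurable.comp (m0 θ)
  have key := hasDerivAt_integral_of_dominated_loc_of_deriv_le (μ := μ) (𝕜 := ℝ)
    (F := fun θ ω => Real.exp (p θ ω) * q θ ω)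
    (F' := fun θ ω => Real.exp (p θ ω) * (p1 θ ω * q θ ω + q1 θ ω)) (x₀ := θ)
    (bound := fun ω => Real.exp C * (C * K + K) * Real.exp (p θ ω))
    (Metric.ball_mem_nhds θ one_pos)
    (Filter.Eventually.of_forall fun t => ((me t).mul (n0 t)).aestronglyMeasurable)
    (by
      refine (hi.mul_const K).mono' ((me θ).mul (n0 θ)).aestronglyMeasurable
        (Filter.Eventually.of_forall fun ω => ?_)
      rw [Real.norm_eq_abs, abs_mul, abs_of_pos (Real.exp_pos _)]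
      exact mul_le_mul_of_nonneg_left (c0 θ ω) (Real.exp_pos _).le)
    (((me θ).mul (((m1 θ).mul (n0 θ)).add (n1 θ))).aestronglyMeasurable)
    (Filter.Eventually.of_forall fun ω t ht => by
      rw [Real.norm_eq_abs, abs_mul, abs_of_pos (Real.exp_pos _)]
      have h1 : Real.exp (p t ω) ≤ Real.exp C * Real.exp (p θ ω) := by
        refine (exp_le_of_lip hp b1 θ t ω).trans ?_
        refine mul_le_mul_of_nonneg_right (Real.exp_le_exp.2 ?_) (Real.exp_pos _).le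
        rw [Metric.mem_ball, Real.dist_eq] at ht
        nlinarith
      have h2 : |p1 t ω * q t ω + q1 t ω| ≤ C * K + K := by
        refine (abs_add_le _ _).trans (add_le_add ?_ (c1 t ω))
        rw [abs_mul]
        exact mul_le_mul (b1 t ω) (c0 t ω) (abs_nonneg _) hC
      calc _ ≤ (Real.exp C * Real.exp (p θ ω)) * (C * K + K) :=
            mul_le_mul h1 h2 (abs_nonneg _) (by positivity)
        _ = _ := by ring)
    (hi.const_mul _)
    (Filter.Eventually.of_forall fun ω t _ => by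
      have h3 := ((hp ω t).exp).mul (hq ω t)
      refine h3.congr_deriv ?_
      ring)
  exact key.2

/-- **The second order condition.** -/
theorem so_le {p p1 p2 : ℝ → Ω → ℝ} {C : ℝ}
    (hp : ∀ ω θ, HasDerivAt (fun θ => p θ ω) (p1 θ ω) θ)
    (hp1 : ∀ ω θ, HasDerivAt (fun θ => p1 θ ω) (p2 θ ω) θ)
    (b1 : ∀ θ ω, |p1 θ ω| ≤ C) (b2 : ∀ θ ω, |p2 θ ω| ≤ C)
    (m0 : ∀ θ, Measurable (p θ)) (m1 : ∀ θ, Measurable (p1 θ)) (m2 : ∀ θ, Measurable (p2 θ))
    (i0 : Integrable (fun ω => Real.exp (p 0 ω)) μ)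
    (hmax : ∀ θ, ∫ ω, Real.exp (p θ ω) ∂μ ≤ ∫ ω, Real.exp (p 0 ω) ∂μ) :
    ∫ ω, Real.exp (p 0 ω) * (p1 0 ω ^ 2 + p2 0 ω) ∂μ ≤ 0 := by
  have h1 : ∀ θ, HasDerivAt (fun θ => ∫ ω, Real.exp (p θ ω) ∂μ)
      (∫ ω, Real.exp (p θ ω) * p1 θ ω ∂μ) θ := by
    intro θ
    have h := di (μ := μ) (q := fun _ _ => 1) (q1 := fun _ _ => 0) (K := 1) hp b1
      (fun ω θ => hasDerivAt_const θ (1 : ℝ)) (fun _ _ => by simp) (fun _ _ => by simp) m0 m1
      (fun _ => measurable_const) (fun _ => measurable_const) i0 θ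
    simpa using h
  have h2 : HasDerivAt (fun θ => ∫ ω, Real.exp (p θ ω) * p1 θ ω ∂μ)
      (∫ ω, Real.exp (p 0 ω) * (p1 0 ω ^ 2 + p2 0 ω) ∂μ) 0 := by
    have h := di (μ := μ) (q := p1) (q1 := p2) (K := C) hp b1 hp1 b1 b2 m0 m1 m1 m2 i0 0
    refine h.congr_deriv ?_
    refine integral_congr_ae (Filter.Eventually.of_forall fun ω => ?_)
    simp only
    ring
  exact second_le h1 h2 hmax

end Vale.Agent.P146.H773
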