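import Vale.Agent.P146.H773.Outer
import Vale.Agent.P146.H461.ConcEv

/-!
Evaluation of the two replica inequality for the log-partition function of an arbitrary system of
configurations with the gauge symmetry.
-/

open MeasureTheory ProbabilityTheory Filter Topology Set

namespace Vale.Agent.P146.H773

open Vale.Agent.P157.Lv Vale.Agent.P146.H425 Vale.Agent.P146.H785 Vale.Agent.P146.H325
open Vale.Agent.P146.H332

set_option linter.unusedSectionVars false

variable {κ : Type} [Fintype κ] [DecidableEq κ] {X : Type} [Fintype X] [Nonempty X]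
  {k : ℝ} {S : κ → X → ℝ} {x b c : ℝ} {y : κ → ℝ}

/-- conditional probability of a configuration -/
noncomputable def al (k : ℝ) (S : κ → X → ℝ) (x b : ℝ) (y : κ → ℝ) (ρ : X) : ℝ :=
  Ax x b (lz k S) (gw k S ρ) y

/-- conditional average of the gradient -/
noncomputable def be (k : ℝ) (S : κ → X → ℝ) (x b : ℝ) (y : κ → ℝ) (ρ : X) (e : κ) : ℝ :=
  Ax x b (lz k S) (fun u => gw k S ρ u * Dg k S e u) y

/-- the second order weight -/
noncomputable def Ps2 (k : ℝ) (S : κ → X → ℝ) (x : ℝ) (e f : κ) (u : κ → ℝ) : ℝ :=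
  (1 - x) ^ 2 * (Dg k S e u * Dg k S f u) - (1 - x) * Hg k S e f u

/-- conditional average of the second order weight -/
noncomputable def ga (k : ℝ) (S : κ → X → ℝ) (x b : ℝ) (y : κ → ℝ) (ρ : X) (e f : κ) : ℝ :=
  Ax x b (lz k S) (fun u => gw k S ρ u * Ps2 k S x e f u) y

lemma eg_Ps2 (e f : κ) : EG (Ps2 k S x e f) :=
  (((H461.eg_Dg k S e).mul (H461.eg_Dg k S f)).const_mul _).sub ((H461.eg_Hg k S e f).const_mul _)

lemma pl_eval (ρ : X) (a : κ → ℝ) (φ : (κ → ℝ) → ℝ) :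
    ∫ z, Real.exp (ip (dir k S ρ) (1 - x) b (lz k S) y a 0 z) * φ (y + b • z) ∂(gI κ) =
      (∫ z, Real.exp (x * lz k S (y + b • z)) ∂(gI κ)) *
        Ax x b (lz k S) (fun u => gw k S ρ u * φ u) y := by
  rw [← H461.int_planted]
  refine integral_congr_ae (Filter.Eventually.of_forall fun z => ?_)
  simp only [ip, dir, zero_smul, add_zero]
  congr 3
  rw [Finset.mul_sum]
  exact Finset.sum_congr rfl fun e _ => by ring

lemma sum_be (ρ : X) (a : κ → ℝ) :
    Ax x b (lz k S) (fun u => gw k S ρ u * -((1 - x) * ∑ e, Dg k S e u * a e)) y =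
      -((1 - x) * ∑ e, be k S x b y ρ e * a e) := by
  have hl := (c11_lz k S).lip
  have hB := (c11_lz k S).B0
  have e1 : (fun u => gw k S ρ u * -((1 - x) * ∑ e, Dg k S e u * a e)) =
      fun u => ∑ e, (-(1 - x) * a e) * (gw k S ρ u * Dg k S e u) := by
    funext u
    rw [Finset.mul_sum, ← Finset.sum_neg_distrib, Finset.mul_sum]
    exact Finset.sum_congr rfl fun e _ => by ring
  rw [e1, Ax_sum hl hB _ fun e _ => ((H461.eg_gw k S ρ).mul (H461.eg_Dg k S e)).const_mul _,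
    Finset.mul_sum, ← Finset.sum_neg_distrib]
  refine Finset.sum_congr rfl fun e _ => ?_
  rw [Ax_const_mul]
  unfold be
  ring

lemma sum_ga (ρ : X) (a : κ → ℝ) :
    Ax x b (lz k S) (fun u => gw k S ρ u * ((-((1 - x) * ∑ e, Dg k S e u * a e)) ^ 2 +
      -((1 - x) * ∑ e, ∑ f, Hg k S e f u * a e * a f))) y =
      ∑ e, ∑ f, ga k S x b y ρ e f * (a e * a f) := by
  have hl := (c11_lz k S).lip
  have hB := (c11_lz k S).B0
  have hE : ∀ e f, EG fun u => (a e * a f) * (gw k S ρ u * Ps2 k S x e f u) := fun e f =>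
    ((H461.eg_gw k S ρ).mul (eg_Ps2 e f)).const_mul _
  have e1 : (fun u => gw k S ρ u * ((-((1 - x) * ∑ e, Dg k S e u * a e)) ^ 2 +
      -((1 - x) * ∑ e, ∑ f, Hg k S e f u * a e * a f))) =
      fun u => ∑ e, ∑ f, (a e * a f) * (gw k S ρ u * Ps2 k S x e f u) := by
    funext u
    have e2 : (-((1 - x) * ∑ e, Dg k S e u * a e)) ^ 2 =
        ∑ e, ∑ f, (1 - x) ^ 2 * ((Dg k S e u * a e) * (Dg k S f u * a f)) := by
      rw [neg_sq, mul_pow, sq (∑ e, Dg k S e u * a e), Finset.sum_mul_sum, Finset.mul_sum]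
      exact Finset.sum_congr rfl fun e _ => Finset.mul_sum _ _ _
    rw [e2, Finset.mul_sum (a := 1 - x), ← Finset.sum_neg_distrib, ← Finset.sum_add_distrib,
      Finset.mul_sum]
    refine Finset.sum_congr rfl fun e _ => ?_
    rw [Finset.mul_sum (a := 1 - x), ← Finset.sum_neg_distrib, ← Finset.sum_add_distrib,
      Finset.mul_sum]
    refine Finset.sum_congr rfl fun f _ => ?_
    unfold Ps2
    ring
  rw [e1, Ax_sum hl hB _ fun e _ => EG.sum _ fun f _ => hE e f]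
  refine Finset.sum_congr rfl fun e _ => ?_
  rw [Ax_sum hl hB _ fun f _ => hE e f]
  refine Finset.sum_congr rfl fun f _ => ?_
  rw [Ax_const_mul]
  unfold ga
  ring

/-- the partition function of the past -/
noncomputable def Nf (k : ℝ) (S : κ → X → ℝ) (x b : ℝ) (y : κ → ℝ) : ℝ :=
  ∫ z, Real.exp (x * lz k S (y + b • z)) ∂(gI κ)

lemma Nf_pos : 0 < Nf k S x b y := (c11_lz k S).lip.pos (c11_lz k S).B0 y b x

lemma ev0 (ρ : X) (a : κ → ℝ) :
    ∫ z, Real.exp (ip (dir k S ρ) (1 - x) b (lz k S) y a 0 z) ∂(gI κ) =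
      Nf k S x b y * al k S x b y ρ := by
  have h := pl_eval (k := k) (S := S) (x := x) (b := b) (y := y) ρ a (fun _ => 1)
  simp only [mul_one] at h
  exact h

lemma al_pos (ρ : X) : 0 < al k S x b y ρ := by
  have h1 : 0 < ∫ z, Real.exp (ip (dir k S ρ) (1 - x) b (lz k S) y 0 0 z) ∂(gI κ) := by
    rw [← IA_eq]
    exact IA_pos (c11_lz k S).lip (c11_lz k S).B0 _ _ _ _ _
  rw [ev0] at h1
  exact (mul_pos_iff_of_pos_left Nf_pos).1 h1

lemma ev1 (ρ : X) (a : κ → ℝ) :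
    L1 (gI κ) (ip (dir k S ρ) (1 - x) b (lz k S) y a) (ip1 (1 - x) b (Dg k S) y a) 0 =
      -((1 - x) * ∑ e, be k S x b y ρ e * a e) / al k S x b y ρ := by
  unfold L1
  have h := pl_eval (k := k) (S := S) (x := x) (b := b) (y := y) ρ a
    (fun u => -((1 - x) * ∑ e, Dg k S e u * a e))
  rw [sum_be] at h
  have e1 : ∫ z, Real.exp (ip (dir k S ρ) (1 - x) b (lz k S) y a 0 z) *
      ip1 (1 - x) b (Dg k S) y a 0 z ∂(gI κ) =
      Nf k S x b y * -((1 - x) * ∑ e, be k S x b y ρ e * a e) := by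
    rw [Nf, ← h]
    refine integral_congr_ae (Filter.Eventually.of_forall fun z => ?_)
    simp only [ip1, zero_smul, add_zero]
  rw [e1, ev0, mul_div_mul_left _ _ Nf_pos.ne']

lemma ev2 (ρ : X) (a : κ → ℝ) :
    L2 (gI κ) (ip (dir k S ρ) (1 - x) b (lz k S) y a) (ip1 (1 - x) b (Dg k S) y a)
      (ip2 (1 - x) b (Hg k S) y a) 0 =
      (∑ e, ∑ f, ga k S x b y ρ e f * (a e * a f)) / al k S x b y ρ -
      (-((1 - x) * ∑ e, be k S x b y ρ e * a e) / al k S x b y ρ) ^ 2 := by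
  unfold L2
  rw [ev1]
  congr 1
  have h := pl_eval (k := k) (S := S) (x := x) (b := b) (y := y) ρ a
    (fun u => (-((1 - x) * ∑ e, Dg k S e u * a e)) ^ 2 +
      -((1 - x) * ∑ e, ∑ f, Hg k S e f u * a e * a f))
  rw [sum_ga] at h
  have e1 : ∫ z, Real.exp (ip (dir k S ρ) (1 - x) b (lz k S) y a 0 z) *
      (ip1 (1 - x) b (Dg k S) y a 0 z ^ 2 + ip2 (1 - x) b (Hg k S) y a 0 z) ∂(gI κ) =
      Nf k S x b y * ∑ e, ∑ f, ga k S x b y ρ e f * (a e * a f) := by
    rw [Nf, ← h]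
    refine integral_congr_ae (Filter.Eventually.of_forall fun z => ?_)
    simp only [ip1, ip2, zero_smul, add_zero]
  rw [e1, ev0, mul_div_mul_left _ _ Nf_pos.ne']

/-- the summand of the identity `alg` -/
noncomputable def Tm (k : ℝ) (S : κ → X → ℝ) (x b : ℝ) (ρ τ : X) (y : κ → ℝ) : ℝ :=
  (∑ e, ∑ f, ga k S x b y ρ e f * (dir k S τ e * dir k S τ f)) * al k S x b y τ +
  al k S x b y ρ * (∑ e, ∑ f, ga k S x b y τ e f * (dir k S ρ e * dir k S ρ f)) -
  2 * (1 - x) ^ 2 * ((∑ e, be k S x b y ρ e * dir k S τ e) *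
    (∑ e, be k S x b y τ e * dir k S ρ e)) +
  4 * x * (1 - x) * (∑ e, DW x b (lz k S) (Dg k S) e y * (dir k S τ e - dir k S ρ e)) *
    ((∑ e, be k S x b y ρ e * dir k S τ e) * al k S x b y τ -
      al k S x b y ρ * (∑ e, be k S x b y τ e * dir k S ρ e)) +
  (4 * x ^ 2 * (∑ e, DW x b (lz k S) (Dg k S) e y * (dir k S τ e - dir k S ρ e)) ^ 2 -
    2 * x * ∑ e, ∑ f, HW x b (lz k S) (Dg k S) (Hg k S) e f y *
      ((dir k S τ e - dir k S ρ e) * (dir k S τ f - dir k S ρ f))) *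
    (al k S x b y ρ * al k S x b y τ)

lemma rat_id {α α' X X' Y Y' g1 g2 x : ℝ} (h : α ≠ 0) (h' : α' ≠ 0) :
    α * α' * ((X / α + X' / α' - 2 * x * g1) ^ 2 + (Y / α - (X / α) ^ 2 + (Y' / α' - (X' / α') ^ 2)
      - 2 * x * g2)) = Y * α' + α * Y' + 2 * (X * X') - 4 * x * g1 * (X * α' + α * X') +
      (4 * x ^ 2 * g1 ^ 2 - 2 * x * g2) * (α * α') := by
  field_simp
  ring

lemma ev_op (hx : 0 < x) (ρ τ : X) (z : κ → ℝ) :
    Real.exp (op (dir k S ρ) (dir k S τ) (1 - x) b c x (lz k S) 0 z) *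
      (op1 (dir k S ρ) (dir k S τ) (1 - x) b c x (lz k S) (Dg k S) 0 z ^ 2 +
        op2 (dir k S ρ) (dir k S τ) (1 - x) b c x (lz k S) (Dg k S) (Hg k S) 0 z) =
      Tm k S x b ρ τ (c • z) := by
  have hN := Nf_pos (k := k) (S := S) (x := x) (b := b) (y := c • z)
  have h1 := al_pos (k := k) (S := S) (x := x) (b := b) (y := c • z) ρ
  have h2 := al_pos (k := k) (S := S) (x := x) (b := b) (y := c • z) τ
  have e0 : Real.exp (op (dir k S ρ) (dir k S τ) (1 - x) b c x (lz k S) 0 z) =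
      al k S x b (c • z) ρ * al k S x b (c • z) τ := by
    unfold op
    rw [IA_eq, IA_eq, ev0, ev0, Real.exp_sub, Real.exp_add, Real.exp_log (mul_pos hN h1),
      Real.exp_log (mul_pos hN h2), zero_smul, add_zero]
    have e1 : Real.exp (2 * x * W x b (lz k S) (c • z)) = Nf k S x b (c • z) ^ 2 := by
      rw [Nf, ← (c11_lz k S).lip.exp_W (c11_lz k S).B0 hx, ← Real.exp_nat_mul]
      congr 1
      push_cast
      ring
    rw [e1]
    field_simp
  rw [e0]
  unfold op1 op2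
  rw [ev1, ev1, ev2, ev2, rat_id h1.ne' h2.ne']
  simp only [zero_smul, add_zero, Pi.sub_apply, Pi.neg_apply]
  unfold Tm
  have e3 : ∑ e, be k S x b (c • z) τ e * -dir k S ρ e =
      -∑ e, be k S x b (c • z) τ e * dir k S ρ e := by
    rw [← Finset.sum_neg_distrib]
    exact Finset.sum_congr rfl fun e _ => by ring
  have e4 : ∑ e, ∑ f, ga k S x b (c • z) τ e f * (-dir k S ρ e * -dir k S ρ f) =
      ∑ e, ∑ f, ga k S x b (c • z) τ e f * (dir k S ρ e * dir k S ρ f) :=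
    Finset.sum_congr rfl fun e _ => Finset.sum_congr rfl fun f _ => by ring
  have e5 : ∑ e, ∑ f, HW x b (lz k S) (Dg k S) (Hg k S) e f (c • z) *
      (dir k S τ e - dir k S ρ e) * (dir k S τ f - dir k S ρ f) =
      ∑ e, ∑ f, HW x b (lz k S) (Dg k S) (Hg k S) e f (c • z) *
      ((dir k S τ e - dir k S ρ e) * (dir k S τ f - dir k S ρ f)) :=
    Finset.sum_congr rfl fun e _ => Finset.sum_congr rfl fun f _ => by ring
  rw [e3, e4, e5]
  ring

end Vale.Agent.P146.H773
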